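import Vale.Agent.P297.H839.Points
import Mathlib.Algebra.MvPolynomial.PDeriv

/-!
Intersections of four quadrics in the projective space of dimension six with a free action of a
group of order eight.
-/

open MvPolynomial

namespace Vale.Agent.P297.C8V

/-- The polynomials `F k` are quadratic forms, and the linear map `X j ↦ c j * X (s j)` multiplies
`F k` by `χ k`. -/
def Semi (c : Fin 7 → ℂ) (s : Fin 7 → Fin 7) (χ : Fin 4 → ℂ)
    (F : Fin 4 → MvPolynomial (Fin 7) ℂ) : Prop :=
  ∀ k, (F k).IsHomogeneous 2 ∧ aeval (fun j => C (c j) * X (s j)) (F k) = C (χ k) * F k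

/-- The diagonal linear map with entries `c j` has no fixed point on the subset `F = 0` of the
projective space. -/
def Free (c : Fin 7 → ℂ) (F : Fin 4 → MvPolynomial (Fin 7) ℂ) : Prop :=
  ∀ (z : Fin 7 → ℂ) (a : ℂ), z ≠ 0 → (∀ j, c j * z j = a * z j) → ∃ i, eval z (F i) ≠ 0

/-- The intersection `F = 0` has only finitely many singular points, and at each of them the
Jacobian matrix has rank three: up to scalars, there are only finitely many pairs of a point `z`
and a linear relation `l` between the gradients at `z`. -/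
def Iso (F : Fin 4 → MvPolynomial (Fin 7) ℂ) : Prop :=
  ∃ Z : Finset ((Fin 7 → ℂ) × (Fin 4 → ℂ)), ∀ z l, (∀ i, eval z (F i) = 0) → z ≠ 0 → l ≠ 0 →
    (∀ j, ∑ i, l i * eval z (pderiv j (F i)) = 0) → ∃ w ∈ Z, ∃ a b : ℂ, z = a • w.1 ∧ l = b • w.2

section

variable {E : Type} [Field E] [Algebra ℂ E]

/-- The intersection `F = 0` is an irreducible surface, `E` is its function field, and `t`, with
`t 0 = 1`, is its generic point. -/
structure IsFF (F : Fin 4 → MvPolynomial (Fin 7) ℂ) (t : Fin 7 → E) : Prop where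
  one : t 0 = 1
  zero : ∀ i, aeval t (F i) = 0
  gen : ∀ (n : ℕ) (P : MvPolynomial (Fin 7) ℂ), P.IsHomogeneous n → aeval t P = 0 →
    ∀ z : Fin 7 → ℂ, (∀ i, eval z (F i) = 0) → eval z P = 0
  top : IntermediateField.adjoin ℂ (Set.range t) = ⊤
  trdeg : Algebra.trdeg ℂ E = 2

/-- The automorphism `G` of the function field is induced by the linear map
`X j ↦ c j * X (s j)`. -/
def Acts (t : Fin 7 → E) (c : Fin 7 → ℂ) (s : Fin 7 → Fin 7) (G : E ≃ₐ[ℂ] E) : Prop :=
  ∀ j, G (t j) * (algebraMap ℂ E (c 0) * t (s 0)) = algebraMap ℂ E (c j) * t (s j)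

/-- All fields contained in the fixed field of `H` satisfy Bloch's conjecture. -/
def BlochSub (H : Subgroup (E ≃ₐ[ℂ] E)) : Prop :=
  ∀ (L : Type) [Field L] [Algebra ℂ L], (L →ₐ[ℂ] IntermediateField.fixedField H) →
    H839.PointsEquivalent L

end

end Vale.Agent.P297.C8V
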