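import Vale.Agent.P297.H10.V3.Defs
import Mathlib.RingTheory.Nullstellensatz

/-!
Forms which vanish at the generic point.
-/

open MvPolynomial

namespace Vale.Agent.P297.C8V

section

variable {E : Type} [Field E] [Algebra ℂ E] {F : Fin 4 → MvPolynomial (Fin 7) ℂ} {t : Fin 7 → E}

/-- A form which vanishes at the generic point is in the radical of the ideal of the surface. -/
theorem IsFF.rad (h : IsFF F t) {n : ℕ} {P : MvPolynomial (Fin 7) ℂ} (hP : P.IsHomogeneous n)
    (h0 : aeval t P = 0) : P ∈ (Ideal.span (Set.range F)).radical := by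
  rw [← vanishingIdeal_zeroLocus_eq_radical (K := ℂ), mem_vanishingIdeal_iff]
  intro z hz
  rw [mem_zeroLocus_iff] at hz
  have h1 := h.gen n P hP h0 z fun i => by
    have h2 := hz (F i) (Ideal.subset_span ⟨i, rfl⟩)
    rwa [aeval_eq_eval] at h2
  rwa [aeval_eq_eval]

/-- A form which vanishes at the generic point vanishes at all points with values in
domains. -/
theorem IsFF.vanish (h : IsFF F t) {n : ℕ} {P : MvPolynomial (Fin 7) ℂ} (hP : P.IsHomogeneous n)
    (h0 : aeval t P = 0) {A : Type*} [CommRing A] [IsDomain A] [Algebra ℂ A] {z : Fin 7 → A}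
    (hz : ∀ i, aeval z (F i) = 0) : aeval z P = 0 := by
  obtain ⟨k, hk⟩ := h.rad hP h0
  have h1 : Ideal.span (Set.range F) ≤ RingHom.ker (aeval z : MvPolynomial (Fin 7) ℂ →ₐ[ℂ] A) := by
    rw [Ideal.span_le]
    rintro _ ⟨i, rfl⟩
    exact hz i
  have h2 := h1 hk
  rw [RingHom.mem_ker, map_pow] at h2
  exact eq_zero_of_pow_eq_zero h2

end

end Vale.Agent.P297.C8V
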