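import Vale.Agent.P297.H10.V3.Main42
import Vale.Agent.P297.H10.V3.Nss
import Vale.Agent.P297.H600.V3.IsoGood
import Vale.Agent.P297.H600.V3.Deg
import Vale.Agent.P297.H600.C8Main

/-!
The group `ℤ/4 × ℤ/2`: the normal form.
-/

set_option linter.unusedSimpArgs false

open MvPolynomial

namespace Vale.Agent.P297.C8V

open Vale.Agent.P297.C8U (P42 vU FreeU IsoPol NoZero GenPt)

theorem f42_of_P42 (p : Fin 9 → ℂ) : C8U.F42 p (P42 p) := by
  have h : C8U.F42 p ![C8U.q 1 1 2 - C8U.q 1 0 0 + C8U.q (p 8) 3 3,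
      C8U.q (p 0) 0 3 + (C8U.q (p 1) 1 1 - C8U.q (p 1) 2 2) +
      (C8U.q (p 5) 0 0 + C8U.q (p 6) 3 3 + (C8U.q (p 7) 1 1 + C8U.q (p 7) 2 2)) - C8U.q 1 4 4,
      C8U.q (p 0) 0 3 + (C8U.q (p 1) 1 1 - C8U.q (p 1) 2 2) -
      (C8U.q (p 5) 0 0 + C8U.q (p 6) 3 3 + (C8U.q (p 7) 1 1 + C8U.q (p 7) 2 2)) - C8U.q 1 5 5,
      C8U.q (p 2) 0 3 + (C8U.q (p 3) 1 1 - C8U.q (p 3) 2 2) + C8U.q (2 * p 4) 4 5 -
        C8U.q 1 6 6] := ⟨rfl, rfl, rfl, rfl⟩
  have h1 := h.eq
  rw [h1] at h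
  exact h

theorem isoPol_P42 {p : Fin 9 → ℂ} (h : Iso (P42 p)) : IsoPol (vU p) := by
  obtain ⟨Z, hZ⟩ := h
  refine ⟨Z, fun z l h1 h2 h3 h4 => hZ z l (fun i => ?_) h2 h3 (fun j => ?_)⟩
  · rw [← aeval_eq_eval, C8U.aeval_vU]
    exact h1 i
  · have h5 := h4 (Pi.single j 1)
    rw [Fin.sum_univ_four] at h5 ⊢
    fin_cases j
    · simp [vU, P42, pderiv_X, C8U.pderiv_two'] at h5 ⊢
      linear_combination h5
    · simp [vU, P42, pderiv_X, C8U.pderiv_two'] at h5 ⊢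
      linear_combination h5
    · simp [vU, P42, pderiv_X, C8U.pderiv_two'] at h5 ⊢
      linear_combination h5
    · simp [vU, P42, pderiv_X, C8U.pderiv_two'] at h5 ⊢
      linear_combination h5
    · simp [vU, P42, pderiv_X, C8U.pderiv_two'] at h5 ⊢
      linear_combination h5
    · simp [vU, P42, pderiv_X, C8U.pderiv_two'] at h5 ⊢
      linear_combination h5
    · simp [vU, P42, pderiv_X, C8U.pderiv_two'] at h5 ⊢
      rcases h5 with h5 | h5
      · exact Or.inl h5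
      · exact Or.inr (by linear_combination -h5 / 2)

theorem noZero_of_free {p : Fin 9 → ℂ} {c : Fin 7 → ℂ} (hf : Free c (P42 p)) (a : ℂ)
    (A : Finset (Fin 7)) (hA : ∀ j, c j ≠ a → j ∈ A) : NoZero (vU p) A := by
  intro z h0 hz
  by_contra hne
  obtain ⟨i, hi⟩ := hf.coord a hne fun j hj => h0 j (hA j hj)
  apply hi
  rw [← aeval_eq_eval, C8U.aeval_vU]
  exact hz i

theorem freeU_P42 {p : Fin 9 → ℂ} (hf₁ : Free ![-1, -1, -1, -1, 1, 1, 1] (P42 p))
    (hf₂ : Free ![1, -1, -1, 1, -1, -1, 1] (P42 p))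
    (hf₃ : Free ![-1, 1, 1, -1, -1, -1, 1] (P42 p)) : FreeU p where
  f1 := noZero_of_free hf₁ (-1) _ fun j hj => by
    fin_cases j
    · exact absurd rfl hj
    · exact absurd rfl hj
    · exact absurd rfl hj
    · exact absurd rfl hj
    · simp
    · simp
    · simp
  f2 := noZero_of_free hf₂ 1 _ fun j hj => by
    fin_cases j
    · exact absurd rfl hj
    · simp
    · simp
    · exact absurd rfl hj
    · simp
    · simp
    · exact absurd rfl hj
  f3 := noZero_of_free hf₂ (-1) _ fun j hj => by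
    fin_cases j
    · simp
    · exact absurd rfl hj
    · exact absurd rfl hj
    · simp
    · exact absurd rfl hj
    · exact absurd rfl hj
    · simp
  f4 := noZero_of_free hf₃ 1 _ fun j hj => by
    fin_cases j
    · simp
    · exact absurd rfl hj
    · exact absurd rfl hj
    · simp
    · simp
    · simp
    · exact absurd rfl hj

theorem main42_proved : Main42 := by
  intro E _ _ p t hi hf₁ hf₂ hf₃ ht
  have hF := freeU_P42 hf₁ hf₂ hf₃
  have hgood := C8U.good_of_iso (isoPol_P42 hi) hF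
  have htU : C8U.IsFF (P42 p) t := ⟨ht.one, ht.zero, ht.top, ht.trdeg⟩
  have hgen : GenPt (P42 p) t := fun n Φ hΦ h0 Ω _ _ z hz => ht.vanish hΦ h0 hz
  have h8 := C8U.finrank8 hF.cm hF.cg htU hgen
  obtain ⟨G₁, G₂, hG₁, hG₂, hB⟩ := C8U.bloch42 (f42_of_P42 p) hgood htU h8
  have h0 := ht.one
  refine ⟨G₁, G₂, fun j => ?_, fun j => ?_, hB⟩
  · have := hG₁ j
    change G₁ (t j) * (algebraMap ℂ E 1 * t 0) = _
    rw [map_one, one_mul]
    exact this
  · have := hG₂ j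
    change G₂ (t j) * (algebraMap ℂ E 1 * t 0) = _
    rw [map_one, one_mul]
    refine this.trans ?_
    fin_cases j <;> rfl

end Vale.Agent.P297.C8V
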