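import Vale.Agent.P297.H10.V3.FormQ

/-!
Semi-invariant quadratic forms for the group `ℤ/4 × ℤ/2`.
-/

open MvPolynomial

namespace Vale.Agent.P297.C8V

/-- The quadratic forms for the group `ℤ/4 × ℤ/2`. -/
structure Form42 (u : Fin 4 → Fin 5 → ℂ) (F : Fin 4 → MvPolynomial (Fin 7) ℂ) : Prop where
  f0 : F 0 = C (u 0 0) * (X 0 * X 1) +
    C (u 0 1) * (X 2 * X 3) +
    C (u 0 2) * (X 4 * X 4) +
    C (u 0 3) * (X 5 * X 5) +
    C (u 0 4) * (X 6 * X 6)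
  f1 : F 1 = C (u 1 0) * (X 0 * X 1) +
    C (u 1 1) * (X 2 * X 3) +
    C (u 1 2) * (X 4 * X 4) +
    C (u 1 3) * (X 5 * X 5) +
    C (u 1 4) * (X 6 * X 6)
  f2 : F 2 = C (u 2 0) * (X 0 * X 0) +
    C (u 2 1) * (X 1 * X 1) +
    C (u 2 2) * (X 2 * X 2) +
    C (u 2 3) * (X 3 * X 3) +
    C (u 2 4) * (X 4 * X 5)
  f3 : F 3 = C (u 3 0) * (X 0 * X 0) +
    C (u 3 1) * (X 1 * X 1) +
    C (u 3 2) * (X 2 * X 2) +
    C (u 3 3) * (X 3 * X 3) +
    C (u 3 4) * (X 4 * X 5)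

theorem exists_form42 {F : Fin 4 → MvPolynomial (Fin 7) ℂ}
    (h1 : Semi ![Complex.I, -Complex.I, Complex.I, -Complex.I, 1, -1, -1] id ![1, 1, -1, -1] F)
    (h2 : Semi ![1, 1, -1, -1, -1, -1, 1] id ![1, 1, 1, 1] F) :
    ∃ u : Fin 4 → Fin 5 → ℂ, Form42 u F := by
  obtain ⟨b, hb, hF, hr⟩ := h1.diag
  have hr2 := h2.coeff_of (fun _ => rfl) hb hF
  have hI2 := Complex.I_sq
  have hc : ∀ j : Fin 7, (![Complex.I, -Complex.I, Complex.I, -Complex.I, 1, -1, -1] :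
      Fin 7 → ℂ) j = Complex.I ^ ((![1, 3, 1, 3, 0, 2, 2] : Fin 7 → ℕ) j) := by
    intro j
    fin_cases j
    · change Complex.I = Complex.I ^ 1
      rw [pow_one]
    · change -Complex.I = Complex.I ^ 3
      linear_combination -Complex.I * hI2
    · change Complex.I = Complex.I ^ 1
      rw [pow_one]
    · change -Complex.I = Complex.I ^ 3
      linear_combination -Complex.I * hI2
    · change (1 : ℂ) = Complex.I ^ 0
      rw [pow_zero]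
    · change (-1 : ℂ) = Complex.I ^ 2
      rw [hI2]
    · change (-1 : ℂ) = Complex.I ^ 2
      rw [hI2]
  have hx : ∀ k : Fin 4, (![1, 1, -1, -1] : Fin 4 → ℂ) k =
      Complex.I ^ ((![0, 0, 2, 2] : Fin 4 → ℕ) k) := by
    intro k
    fin_cases k
    · change (1 : ℂ) = Complex.I ^ 0
      rw [pow_zero]
    · change (1 : ℂ) = Complex.I ^ 0
      rw [pow_zero]
    · change (-1 : ℂ) = Complex.I ^ 2
      rw [hI2]
    · change (-1 : ℂ) = Complex.I ^ 2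
      rw [hI2]
  have hz : ∀ (k : Fin 4) (i j : Fin 7), ((![1, 3, 1, 3, 0, 2, 2] : Fin 7 → ℕ) i +
      (![1, 3, 1, 3, 0, 2, 2] : Fin 7 → ℕ) j) % 4 ≠ ((![0, 0, 2, 2] : Fin 4 → ℕ) k) % 4 →
      b k i j = 0 := by
    intro k i j hne
    have h1 := hr k i j
    rw [hc, hc, hx, ← pow_add] at h1
    by_contra h0
    exact I_pow_ne hne (mul_right_cancel₀ h0 h1)
  have hw : ∀ (k : Fin 4) (i j : Fin 7), (![1, 1, -1, -1, -1, -1, 1] : Fin 7 → ℂ) i *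
      (![1, 1, -1, -1, -1, -1, 1] : Fin 7 → ℂ) j = -1 → b k i j = 0 := by
    intro k i j h
    have h1 := hr2 k i j
    rw [h] at h1
    have h3 : (![1, 1, 1, 1] : Fin 4 → ℂ) k = 1 := by
      fin_cases k <;> rfl
    rw [h3] at h1
    change -1 * b k i j = 1 * b k i j at h1
    linear_combination (-1 / 2 : ℂ) * h1
  have w003 : b 0 0 3 = 0 := hw 0 0 3 (by change (1 : ℂ) * (-1 : ℂ) = -1; ring)
  have w012 : b 0 1 2 = 0 := hw 0 1 2 (by change (1 : ℂ) * (-1 : ℂ) = -1; ring)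
  have w021 : b 0 2 1 = 0 := hw 0 2 1 (by change (-1 : ℂ) * (1 : ℂ) = -1; ring)
  have w030 : b 0 3 0 = 0 := hw 0 3 0 (by change (-1 : ℂ) * (1 : ℂ) = -1; ring)
  have w056 : b 0 5 6 = 0 := hw 0 5 6 (by change (-1 : ℂ) * (1 : ℂ) = -1; ring)
  have w065 : b 0 6 5 = 0 := hw 0 6 5 (by change (1 : ℂ) * (-1 : ℂ) = -1; ring)
  have w103 : b 1 0 3 = 0 := hw 1 0 3 (by change (1 : ℂ) * (-1 : ℂ) = -1; ring)
  have w112 : b 1 1 2 = 0 := hw 1 1 2 (by change (1 : ℂ) * (-1 : ℂ) = -1; ring)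
  have w121 : b 1 2 1 = 0 := hw 1 2 1 (by change (-1 : ℂ) * (1 : ℂ) = -1; ring)
  have w130 : b 1 3 0 = 0 := hw 1 3 0 (by change (-1 : ℂ) * (1 : ℂ) = -1; ring)
  have w156 : b 1 5 6 = 0 := hw 1 5 6 (by change (-1 : ℂ) * (1 : ℂ) = -1; ring)
  have w165 : b 1 6 5 = 0 := hw 1 6 5 (by change (1 : ℂ) * (-1 : ℂ) = -1; ring)
  have w202 : b 2 0 2 = 0 := hw 2 0 2 (by change (1 : ℂ) * (-1 : ℂ) = -1; ring)
  have w213 : b 2 1 3 = 0 := hw 2 1 3 (by change (1 : ℂ) * (-1 : ℂ) = -1; ring)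
  have w220 : b 2 2 0 = 0 := hw 2 2 0 (by change (-1 : ℂ) * (1 : ℂ) = -1; ring)
  have w231 : b 2 3 1 = 0 := hw 2 3 1 (by change (-1 : ℂ) * (1 : ℂ) = -1; ring)
  have w246 : b 2 4 6 = 0 := hw 2 4 6 (by change (-1 : ℂ) * (1 : ℂ) = -1; ring)
  have w264 : b 2 6 4 = 0 := hw 2 6 4 (by change (1 : ℂ) * (-1 : ℂ) = -1; ring)
  have w302 : b 3 0 2 = 0 := hw 3 0 2 (by change (1 : ℂ) * (-1 : ℂ) = -1; ring)
  have w313 : b 3 1 3 = 0 := hw 3 1 3 (by change (1 : ℂ) * (-1 : ℂ) = -1; ring)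
  have w320 : b 3 2 0 = 0 := hw 3 2 0 (by change (-1 : ℂ) * (1 : ℂ) = -1; ring)
  have w331 : b 3 3 1 = 0 := hw 3 3 1 (by change (-1 : ℂ) * (1 : ℂ) = -1; ring)
  have w346 : b 3 4 6 = 0 := hw 3 4 6 (by change (-1 : ℂ) * (1 : ℂ) = -1; ring)
  have w364 : b 3 6 4 = 0 := hw 3 6 4 (by change (1 : ℂ) * (-1 : ℂ) = -1; ring)
  refine ⟨![![2 * b 0 0 1, 2 * b 0 2 3, b 0 4 4, b 0 5 5, b 0 6 6],
    ![2 * b 1 0 1, 2 * b 1 2 3, b 1 4 4, b 1 5 5, b 1 6 6],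
    ![b 2 0 0, b 2 1 1, b 2 2 2, b 2 3 3, 2 * b 2 4 5],
    ![b 3 0 0, b 3 1 1, b 3 2 2, b 3 3 3, 2 * b 3 4 5]], ?_, ?_, ?_, ?_⟩
  · rw [hF 0]
    simp only [Fin.sum_univ_seven, hz 0 0 0 (by decide), hz 0 0 2 (by decide), w003, hz 0 0 4 (by decide), hz 0 0 5 (by decide), hz 0 0 6 (by decide), hz 0 1 1 (by decide), w012, hz 0 1 3 (by decide), hz 0 1 4 (by decide), hz 0 1 5 (by decide), hz 0 1 6 (by decide), hz 0 2 0 (by decide), w021, hz 0 2 2 (by decide), hz 0 2 4 (by decide), hz 0 2 5 (by decide), hz 0 2 6 (by decide), w030, hz 0 3 1 (by decide), hz 0 3 3 (by decide), hz 0 3 4 (by decide), hz 0 3 5 (by decide), hz 0 3 6 (by decide), hz 0 4 0 (by decide), hz 0 4 1 (by decide), hz 0 4 2 (by decide), hz 0 4 3 (by decide), hz 0 4 5 (by decide), hz 0 4 6 (by decide), hz 0 5 0 (by decide), hz 0 5 1 (by decide), hz 0 5 2 (by decide), hz 0 5 3 (by decide), hz 0 5 4 (by decide), w056,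 hz 0 6 0 (by decide), hz 0 6 1 (by decide), hz 0 6 2 (by decide), hz 0 6 3 (by decide), hz 0 6 4 (by decide), w065, map_zero, zero_mul, add_zero, zero_add]
    rw [hb 0 1 0, hb 0 3 2]
    have h2 : (C 2 : MvPolynomial (Fin 7) ℂ) = 2 := map_ofNat C 2
    change _ = C (2 * b 0 0 1) * (X 0 * X 1) + C (2 * b 0 2 3) * (X 2 * X 3) + C (b 0 4 4) * (X 4 * X 4) + C (b 0 5 5) * (X 5 * X 5) + C (b 0 6 6) * (X 6 * X 6)
    simp only [map_mul, h2]
    ring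
  · rw [hF 1]
    simp only [Fin.sum_univ_seven, hz 1 0 0 (by decide), hz 1 0 2 (by decide), w103, hz 1 0 4 (by decide), hz 1 0 5 (by decide), hz 1 0 6 (by decide), hz 1 1 1 (by decide), w112, hz 1 1 3 (by decide), hz 1 1 4 (by decide), hz 1 1 5 (by decide), hz 1 1 6 (by decide), hz 1 2 0 (by decide), w121, hz 1 2 2 (by decide), hz 1 2 4 (by decide), hz 1 2 5 (by decide), hz 1 2 6 (by decide), w130, hz 1 3 1 (by decide), hz 1 3 3 (by decide), hz 1 3 4 (by decide), hz 1 3 5 (by decide), hz 1 3 6 (by decide), hz 1 4 0 (by decide), hz 1 4 1 (by decide), hz 1 4 2 (by decide), hz 1 4 3 (by decide), hz 1 4 5 (by decide), hz 1 4 6 (by decide), hz 1 5 0 (by decide), hz 1 5 1 (by decide), hz 1 5 2 (by decide), hz 1 5 3 (by decide), hz 1 5 4 (by decide), w156, hz 1 6 0 (by decide), hz 1 6 1 (by decide), hz 1 6 2 (by decide), hz 1 6 3 (by decide), hz 1 6 4 (by decide), w165, map_zero, zero_mul,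 add_zero, zero_add]
    rw [hb 1 1 0, hb 1 3 2]
    have h2 : (C 2 : MvPolynomial (Fin 7) ℂ) = 2 := map_ofNat C 2
    change _ = C (2 * b 1 0 1) * (X 0 * X 1) + C (2 * b 1 2 3) * (X 2 * X 3) + C (b 1 4 4) * (X 4 * X 4) + C (b 1 5 5) * (X 5 * X 5) + C (b 1 6 6) * (X 6 * X 6)
    simp only [map_mul, h2]
    ring
  · rw [hF 2]
    simp only [Fin.sum_univ_seven, hz 2 0 1 (by decide), w202, hz 2 0 3 (by decide), hz 2 0 4 (by decide), hz 2 0 5 (by decide), hz 2 0 6 (by decide), hz 2 1 0 (by decide), hz 2 1 2 (by decide), w213, hz 2 1 4 (by decide), hz 2 1 5 (by decide), hz 2 1 6 (by decide), w220, hz 2 2 1 (by decide), hz 2 2 3 (by decide), hz 2 2 4 (by decide), hz 2 2 5 (by decide), hz 2 2 6 (by decide), hz 2 3 0 (by decide), w231, hz 2 3 2 (by decide), hz 2 3 4 (by decide), hz 2 3 5 (by decide), hz 2 3 6 (by decide), hz 2 4 0 (by decide), hz 2 4 1 (by decide), hz 2 4 2 (by decide),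 hz 2 4 3 (by decide), hz 2 4 4 (by decide), w246, hz 2 5 0 (by decide), hz 2 5 1 (by decide), hz 2 5 2 (by decide), hz 2 5 3 (by decide), hz 2 5 5 (by decide), hz 2 5 6 (by decide), hz 2 6 0 (by decide), hz 2 6 1 (by decide), hz 2 6 2 (by decide), hz 2 6 3 (by decide), w264, hz 2 6 5 (by decide), hz 2 6 6 (by decide), map_zero, zero_mul, add_zero, zero_add]
    rw [hb 2 5 4]
    have h2 : (C 2 : MvPolynomial (Fin 7) ℂ) = 2 := map_ofNat C 2
    change _ = C (b 2 0 0) * (X 0 * X 0) + C (b 2 1 1) * (X 1 * X 1) + C (b 2 2 2) * (X 2 * X 2) + C (b 2 3 3) * (X 3 * X 3) + C (2 * b 2 4 5) * (X 4 * X 5)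
    simp only [map_mul, h2]
    ring
  · rw [hF 3]
    simp only [Fin.sum_univ_seven, hz 3 0 1 (by decide), w302, hz 3 0 3 (by decide), hz 3 0 4 (by decide), hz 3 0 5 (by decide), hz 3 0 6 (by decide), hz 3 1 0 (by decide), hz 3 1 2 (by decide), w313, hz 3 1 4 (by decide), hz 3 1 5 (by decide), hz 3 1 6 (by decide), w320, hz 3 2 1 (by decide), hz 3 2 3 (by decide), hz 3 2 4 (by decide), hz 3 2 5 (by decide), hz 3 2 6 (by decide), hz 3 3 0 (by decide), w331, hz 3 3 2 (by decide), hz 3 3 4 (by decide), hz 3 3 5 (by decide), hz 3 3 6 (by decide), hz 3 4 0 (by decide), hz 3 4 1 (by decide), hz 3 4 2 (by decide), hz 3 4 3 (by decide), hz 3 4 4 (by decide), w346, hz 3 5 0 (by decide), hz 3 5 1 (by decide), hz 3 5 2 (by decide), hz 3 5 3 (by decide), hz 3 5 5 (by decide), hz 3 5 6 (by decide), hz 3 6 0 (by decide), hz 3 6 1 (by decide), hz 3 6 2 (by decide), hz 3 6 3 (by decide), w364,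 hz 3 6 5 (by decide), hz 3 6 6 (by decide), map_zero, zero_mul, add_zero, zero_add]
    rw [hb 3 5 4]
    have h2 : (C 2 : MvPolynomial (Fin 7) ℂ) = 2 := map_ofNat C 2
    change _ = C (b 3 0 0) * (X 0 * X 0) + C (b 3 1 1) * (X 1 * X 1) + C (b 3 2 2) * (X 2 * X 2) + C (b 3 3 3) * (X 3 * X 3) + C (2 * b 3 4 5) * (X 4 * X 5)
    simp only [map_mul, h2]
    ring

end Vale.Agent.P297.C8V
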