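import Vale.Agent.P297.H10.V3.SemiQ
import Mathlib.RingTheory.RootsOfUnity.PrimitiveRoots

/-!
Semi-invariant quadratic forms for the group `ℤ/8`.
-/

open MvPolynomial

namespace Vale.Agent.P297.C8V

theorem pow_ne {ζ : ℂ} (hζ : ζ ^ 2 = Complex.I) {m n : ℕ} (h : m % 8 ≠ n % 8) : ζ ^ m ≠ ζ ^ n := by
  have h4 : ζ ^ 4 = -1 := by
    linear_combination (ζ ^ 2 + Complex.I) * hζ + Complex.I_sq
  have h8 : orderOf ζ = 2 ^ (2 + 1) := by
    refine orderOf_eq_prime_pow ?_ ?_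
    · rw [show 2 ^ 2 = 4 from rfl, h4]
      norm_num
    · linear_combination (ζ ^ 4 - 1) * h4
  intro h0
  apply h
  norm_num at h8
  have h9 : IsPrimitiveRoot ζ 8 := h8 ▸ IsPrimitiveRoot.orderOf ζ
  have h10 : ∀ n : ℕ, ζ ^ (n % 8) = ζ ^ n := fun n => by
    have := pow_mod_orderOf ζ n
    rwa [h8] at this
  rw [← h10 m, ← h10 n] at h0
  exact h9.pow_inj (Nat.mod_lt _ (by norm_num)) (Nat.mod_lt _ (by norm_num)) h0

/-- The quadratic forms for the group `ℤ/8`. -/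
structure Form8 (u : Fin 4 → Fin 4 → ℂ) (F : Fin 4 → MvPolynomial (Fin 7) ℂ) : Prop where
  f0 : F 0 = C (u 0 0) * (X 0 * X 0) +
    C (u 0 1) * (X 4 * X 4) +
    C (u 0 2) * (X 2 * X 6) +
    C (u 0 3) * (X 3 * X 5)
  f1 : F 1 = C (u 1 0) * (X 0 * X 2) +
    C (u 1 1) * (X 4 * X 6) +
    C (u 1 2) * (X 1 * X 1) +
    C (u 1 3) * (X 5 * X 5)
  f2 : F 2 = C (u 2 0) * (X 2 * X 2) +
    C (u 2 1) * (X 6 * X 6) +
    C (u 2 2) * (X 0 * X 4) +
    C (u 2 3) * (X 1 * X 3)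
  f3 : F 3 = C (u 3 0) * (X 0 * X 6) +
    C (u 3 1) * (X 2 * X 4) +
    C (u 3 2) * (X 1 * X 5) +
    C (u 3 3) * (X 3 * X 3)

theorem exists_form8 {ζ : ℂ} (hζ : ζ ^ 2 = Complex.I) {F : Fin 4 → MvPolynomial (Fin 7) ℂ}
    (h : Semi (fun j => ζ ^ (j : ℕ)) id (fun k => ζ ^ (2 * (k : ℕ))) F) :
    ∃ u : Fin 4 → Fin 4 → ℂ, Form8 u F := by
  obtain ⟨b, hb, hF, hr⟩ := h.diag
  have hz : ∀ (k : Fin 4) (i j : Fin 7), ((i : ℕ) + j) % 8 ≠ (2 * (k : ℕ)) % 8 → b k i j = 0 := by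
    intro k i j hne
    have h1 := hr k i j
    rw [← pow_add] at h1
    by_contra h0
    exact pow_ne hζ hne (mul_right_cancel₀ h0 h1)
  refine ⟨![![b 0 0 0, b 0 4 4, 2 * b 0 2 6, 2 * b 0 3 5],
    ![2 * b 1 0 2, 2 * b 1 4 6, b 1 1 1, b 1 5 5],
    ![b 2 2 2, b 2 6 6, 2 * b 2 0 4, 2 * b 2 1 3],
    ![2 * b 3 0 6, 2 * b 3 2 4, 2 * b 3 1 5, b 3 3 3]], ?_, ?_, ?_, ?_⟩
  · rw [hF 0]
    simp only [Fin.sum_univ_seven, hz 0 0 1 (by decide), hz 0 0 2 (by decide), hz 0 0 3 (by decide), hz 0 0 4 (by decide), hz 0 0 5 (by decide), hz 0 0 6 (by decide), hz 0 1 0 (by decide), hz 0 1 1 (by decide), hz 0 1 2 (by decide), hz 0 1 3 (by decide), hz 0 1 4 (by decide), hz 0 1 5 (by decide), hz 0 1 6 (by decide), hz 0 2 0 (by decide), hz 0 2 1 (by decide), hz 0 2 2 (by decide), hz 0 2 3 (by decide), hz 0 2 4 (by decide), hz 0 2 5 (by decide), hz 0 3 0 (by decide), hz 0 3 1 (by decide), hz 0 3 2 (by decide),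 hz 0 3 3 (by decide), hz 0 3 4 (by decide), hz 0 3 6 (by decide), hz 0 4 0 (by decide), hz 0 4 1 (by decide), hz 0 4 2 (by decide), hz 0 4 3 (by decide), hz 0 4 5 (by decide), hz 0 4 6 (by decide), hz 0 5 0 (by decide), hz 0 5 1 (by decide), hz 0 5 2 (by decide), hz 0 5 4 (by decide), hz 0 5 5 (by decide), hz 0 5 6 (by decide), hz 0 6 0 (by decide), hz 0 6 1 (by decide), hz 0 6 3 (by decide), hz 0 6 4 (by decide), hz 0 6 5 (by decide), hz 0 6 6 (by decide), map_zero, zero_mul, add_zero, zero_add]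
    rw [hb 0 5 3, hb 0 6 2]
    have h2 : (C 2 : MvPolynomial (Fin 7) ℂ) = 2 := map_ofNat C 2
    change _ = C (b 0 0 0) * (X 0 * X 0) + C (b 0 4 4) * (X 4 * X 4) + C (2 * b 0 2 6) * (X 2 * X 6) + C (2 * b 0 3 5) * (X 3 * X 5)
    simp only [map_mul, h2]
    ring
  · rw [hF 1]
    simp only [Fin.sum_univ_seven, hz 1 0 0 (by decide), hz 1 0 1 (by decide), hz 1 0 3 (by decide), hz 1 0 4 (by decide), hz 1 0 5 (by decide), hz 1 0 6 (by decide), hz 1 1 0 (by decide), hz 1 1 2 (by decide), hz 1 1 3 (by decide), hz 1 1 4 (by decide), hz 1 1 5 (by decide), hz 1 1 6 (by decide), hz 1 2 1 (by decide), hz 1 2 2 (by decide), hz 1 2 3 (by decide), hz 1 2 4 (by decide), hz 1 2 5 (by decide), hz 1 2 6 (by decide), hz 1 3 0 (by decide), hz 1 3 1 (by decide), hz 1 3 2 (by decide), hz 1 3 3 (by decide), hz 1 3 4 (by decide), hz 1 3 5 (by decide), hz 1 3 6 (by decide), hz 1 4 0 (by decide), hz 1 4 1 (by decide),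 hz 1 4 2 (by decide), hz 1 4 3 (by decide), hz 1 4 4 (by decide), hz 1 4 5 (by decide), hz 1 5 0 (by decide), hz 1 5 1 (by decide), hz 1 5 2 (by decide), hz 1 5 3 (by decide), hz 1 5 4 (by decide), hz 1 5 6 (by decide), hz 1 6 0 (by decide), hz 1 6 1 (by decide), hz 1 6 2 (by decide), hz 1 6 3 (by decide), hz 1 6 5 (by decide), hz 1 6 6 (by decide), map_zero, zero_mul, add_zero, zero_add]
    rw [hb 1 2 0, hb 1 6 4]
    have h2 : (C 2 : MvPolynomial (Fin 7) ℂ) = 2 := map_ofNat C 2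
    change _ = C (2 * b 1 0 2) * (X 0 * X 2) + C (2 * b 1 4 6) * (X 4 * X 6) + C (b 1 1 1) * (X 1 * X 1) + C (b 1 5 5) * (X 5 * X 5)
    simp only [map_mul, h2]
    ring
  · rw [hF 2]
    simp only [Fin.sum_univ_seven, hz 2 0 0 (by decide), hz 2 0 1 (by decide), hz 2 0 2 (by decide), hz 2 0 3 (by decide), hz 2 0 5 (by decide), hz 2 0 6 (by decide), hz 2 1 0 (by decide), hz 2 1 1 (by decide), hz 2 1 2 (by decide), hz 2 1 4 (by decide), hz 2 1 5 (by decide), hz 2 1 6 (by decide), hz 2 2 0 (by decide), hz 2 2 1 (by decide), hz 2 2 3 (by decide), hz 2 2 4 (by decide), hz 2 2 5 (by decide), hz 2 2 6 (by decide), hz 2 3 0 (by decide), hz 2 3 2 (by decide), hz 2 3 3 (by decide), hz 2 3 4 (by decide), hz 2 3 5 (by decide), hz 2 3 6 (by decide), hz 2 4 1 (by decide), hz 2 4 2 (by decide), hz 2 4 3 (by decide), hz 2 4 4 (by decide), hz 2 4 5 (by decide), hz 2 4 6 (by decide), hz 2 5 0 (by decide),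 hz 2 5 1 (by decide), hz 2 5 2 (by decide), hz 2 5 3 (by decide), hz 2 5 4 (by decide), hz 2 5 5 (by decide), hz 2 5 6 (by decide), hz 2 6 0 (by decide), hz 2 6 1 (by decide), hz 2 6 2 (by decide), hz 2 6 3 (by decide), hz 2 6 4 (by decide), hz 2 6 5 (by decide), map_zero, zero_mul, add_zero, zero_add]
    rw [hb 2 3 1, hb 2 4 0]
    have h2 : (C 2 : MvPolynomial (Fin 7) ℂ) = 2 := map_ofNat C 2
    change _ = C (b 2 2 2) * (X 2 * X 2) + C (b 2 6 6) * (X 6 * X 6) + C (2 * b 2 0 4) * (X 0 * X 4) + C (2 * b 2 1 3) * (X 1 * X 3)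
    simp only [map_mul, h2]
    ring
  · rw [hF 3]
    simp only [Fin.sum_univ_seven, hz 3 0 0 (by decide), hz 3 0 1 (by decide), hz 3 0 2 (by decide), hz 3 0 3 (by decide), hz 3 0 4 (by decide), hz 3 0 5 (by decide), hz 3 1 0 (by decide), hz 3 1 1 (by decide), hz 3 1 2 (by decide), hz 3 1 3 (by decide), hz 3 1 4 (by decide), hz 3 1 6 (by decide), hz 3 2 0 (by decide), hz 3 2 1 (by decide), hz 3 2 2 (by decide), hz 3 2 3 (by decide), hz 3 2 5 (by decide), hz 3 2 6 (by decide), hz 3 3 0 (by decide), hz 3 3 1 (by decide), hz 3 3 2 (by decide), hz 3 3 4 (by decide), hz 3 3 5 (by decide), hz 3 3 6 (by decide), hz 3 4 0 (by decide), hz 3 4 1 (by decide), hz 3 4 3 (by decide), hz 3 4 4 (by decide), hz 3 4 5 (by decide), hz 3 4 6 (by decide), hz 3 5 0 (by decide), hz 3 5 2 (by decide), hz 3 5 3 (by decide), hz 3 5 4 (by decide), hz 3 5 5 (by decide), hz 3 5 6 (by decide), hz 3 6 1 (by decide),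 hz 3 6 2 (by decide), hz 3 6 3 (by decide), hz 3 6 4 (by decide), hz 3 6 5 (by decide), hz 3 6 6 (by decide), map_zero, zero_mul, add_zero, zero_add]
    rw [hb 3 4 2, hb 3 5 1, hb 3 6 0]
    have h2 : (C 2 : MvPolynomial (Fin 7) ℂ) = 2 := map_ofNat C 2
    change _ = C (2 * b 3 0 6) * (X 0 * X 6) + C (2 * b 3 2 4) * (X 2 * X 4) + C (2 * b 3 1 5) * (X 1 * X 5) + C (b 3 3 3) * (X 3 * X 3)
    simp only [map_mul, h2]
    ring

end Vale.Agent.P297.C8V
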