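import Vale.Agent.P297.H10.V3.Norm42
import Vale.Agent.P297.H600.C8LinkU

/-!
The normal form for the group `ℤ/4 × ℤ/2`.
-/

open MvPolynomial

namespace Vale.Agent.P297.C8V

open Vale.Agent.P297.C8U (P42)

variable {w : Fin 4 → Fin 5 → ℂ} {F : Fin 4 → MvPolynomial (Fin 7) ℂ}

/-- the change of coordinates -/
noncomputable def LU (a b c d : ℂ) : Fin 7 → MvPolynomial (Fin 7) ℂ :=
  ![X 0, C a * X 2 + C b * X 3, C a * X 2 - C b * X 3, X 1, C c * X 5 + C d * X 4,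
    C c * X 5 - C d * X 4, X 6]

/-- the inverse change of coordinates -/
noncomputable def LU' (a b c d : ℂ) : Fin 7 → MvPolynomial (Fin 7) ℂ :=
  ![X 0, X 3, C (2 * a)⁻¹ * (X 1 + X 2), C (2 * b)⁻¹ * (X 1 - X 2),
    C (2 * d)⁻¹ * (X 4 - X 5), C (2 * c)⁻¹ * (X 4 + X 5), X 6]

theorem homC' (c : ℂ) {P : MvPolynomial (Fin 7) ℂ} (h : P.IsHomogeneous 1) :
    (C c * P).IsHomogeneous 1 := by
  have := (isHomogeneous_C (Fin 7) c).mul h
  rwa [zero_add] at this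

theorem LU_hom (a b c d : ℂ) (j : Fin 7) : (LU a b c d j).IsHomogeneous 1 := by
  fin_cases j
  · exact isHomogeneous_X _ _
  · exact (homC' _ (isHomogeneous_X _ _)).add (homC' _ (isHomogeneous_X _ _))
  · exact (homC' _ (isHomogeneous_X _ _)).sub (homC' _ (isHomogeneous_X _ _))
  · exact isHomogeneous_X _ _
  · exact (homC' _ (isHomogeneous_X _ _)).add (homC' _ (isHomogeneous_X _ _))
  · exact (homC' _ (isHomogeneous_X _ _)).sub (homC' _ (isHomogeneous_X _ _))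
  · exact isHomogeneous_X _ _

theorem LU'_hom (a b c d : ℂ) (j : Fin 7) : (LU' a b c d j).IsHomogeneous 1 := by
  fin_cases j
  · exact isHomogeneous_X _ _
  · exact isHomogeneous_X _ _
  · exact homC' _ ((isHomogeneous_X _ _).add (isHomogeneous_X _ _))
  · exact homC' _ ((isHomogeneous_X _ _).sub (isHomogeneous_X _ _))
  · exact homC' _ ((isHomogeneous_X _ _).sub (isHomogeneous_X _ _))
  · exact homC' _ ((isHomogeneous_X _ _).add (isHomogeneous_X _ _))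
  · exact isHomogeneous_X _ _

/-- values -/
theorem LU_ev {R : Type*} [CommRing R] [Algebra ℂ R] (a b c d : ℂ) (z : Fin 7 → R) :
    (fun j => aeval z (LU a b c d j)) = ![z 0,
      algebraMap ℂ R a * z 2 + algebraMap ℂ R b * z 3,
      algebraMap ℂ R a * z 2 - algebraMap ℂ R b * z 3, z 1,
      algebraMap ℂ R c * z 5 + algebraMap ℂ R d * z 4,
      algebraMap ℂ R c * z 5 - algebraMap ℂ R d * z 4, z 6] := by
  funext j
  fin_cases j <;> simp [LU]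

theorem LU'_ev {R : Type*} [CommRing R] [Algebra ℂ R] (a b c d : ℂ) (z : Fin 7 → R) :
    (fun j => aeval z (LU' a b c d j)) = ![z 0, z 3,
      algebraMap ℂ R (2 * a)⁻¹ * (z 1 + z 2), algebraMap ℂ R (2 * b)⁻¹ * (z 1 - z 2),
      algebraMap ℂ R (2 * d)⁻¹ * (z 4 - z 5), algebraMap ℂ R (2 * c)⁻¹ * (z 4 + z 5), z 6] := by
  funext j
  fin_cases j <;> simp [LU']

theorem LU_inv {a b c d : ℂ} (ha : a ≠ 0) (hb : b ≠ 0) (hc : c ≠ 0) (hd : d ≠ 0) (j : Fin 7) :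
    aeval (LU a b c d) (LU' a b c d j) = X j := by
  refine MvPolynomial.funext fun z => ?_
  rw [eval_comp, eval_X]
  have h1 := LU_ev a b c d z
  simp only [aeval_eq_eval, Algebra.algebraMap_self, RingHom.id_apply] at h1
  rw [h1]
  have h2 := congrFun (LU'_ev a b c d (![z 0, a * z 2 + b * z 3, a * z 2 - b * z 3, z 1,
    c * z 5 + d * z 4, c * z 5 - d * z 4, z 6])) j
  simp only [aeval_eq_eval, Algebra.algebraMap_self, RingHom.id_apply] at h2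
  rw [h2]
  fin_cases j
  · rfl
  · rfl
  · change (2 * a)⁻¹ * ((a * z 2 + b * z 3) + (a * z 2 - b * z 3)) = z 2
    field_simp
    ring
  · change (2 * b)⁻¹ * ((a * z 2 + b * z 3) - (a * z 2 - b * z 3)) = z 3
    field_simp
    ring
  · change (2 * d)⁻¹ * ((c * z 5 + d * z 4) - (c * z 5 - d * z 4)) = z 4
    field_simp
    ring
  · change (2 * c)⁻¹ * ((c * z 5 + d * z 4) + (c * z 5 - d * z 4)) = z 5
    field_simp
    ring
  · rfl

theorem LU_inv' {a b c d : ℂ} (ha : a ≠ 0) (hb : b ≠ 0) (hc : c ≠ 0) (hd : d ≠ 0) (j : Fin 7) :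
    aeval (LU' a b c d) (LU a b c d j) = X j := by
  refine MvPolynomial.funext fun z => ?_
  rw [eval_comp, eval_X]
  have h1 := LU'_ev a b c d z
  simp only [aeval_eq_eval, Algebra.algebraMap_self, RingHom.id_apply] at h1
  rw [h1]
  have h2 := congrFun (LU_ev a b c d (![z 0, z 3, (2 * a)⁻¹ * (z 1 + z 2),
    (2 * b)⁻¹ * (z 1 - z 2), (2 * d)⁻¹ * (z 4 - z 5), (2 * c)⁻¹ * (z 4 + z 5), z 6])) j
  simp only [aeval_eq_eval, Algebra.algebraMap_self, RingHom.id_apply] at h2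
  rw [h2]
  fin_cases j
  · rfl
  · change a * ((2 * a)⁻¹ * (z 1 + z 2)) + b * ((2 * b)⁻¹ * (z 1 - z 2)) = z 1
    field_simp
    ring
  · change a * ((2 * a)⁻¹ * (z 1 + z 2)) - b * ((2 * b)⁻¹ * (z 1 - z 2)) = z 2
    field_simp
    ring
  · rfl
  · change c * ((2 * c)⁻¹ * (z 4 + z 5)) + d * ((2 * d)⁻¹ * (z 4 - z 5)) = z 4
    field_simp
    ring
  · change c * ((2 * c)⁻¹ * (z 4 + z 5)) - d * ((2 * d)⁻¹ * (z 4 - z 5)) = z 5
    field_simp
    ring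
  · rfl

/-- The normal form. -/
theorem Form42.link (h : Form42 w F) (hw : Nrm w) (h20 : w 2 0 ≠ 0) (h22 : w 2 2 ≠ 0)
    (h23 : w 2 3 ≠ 0) :
    ∃ (p : Fin 9 → ℂ) (a b c d : ℂ) (R R' : Matrix (Fin 4) (Fin 4) ℂ),
      a ≠ 0 ∧ b ≠ 0 ∧ c ≠ 0 ∧ d ≠ 0 ∧ Link F (P42 p) (LU a b c d) (LU' a b c d) R R' := by
  obtain ⟨r, hr⟩ : ∃ r, r * w 2 0 = -1 := ⟨-(w 2 0)⁻¹, by field_simp⟩
  have hr0 : r ≠ 0 := by
    rintro rfl
    rw [zero_mul] at hr
    norm_num at hr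
  obtain ⟨a, ha⟩ := IsAlgClosed.exists_pow_nat_eq (r * w 2 2) (n := 2) (by norm_num)
  obtain ⟨b, hb⟩ := IsAlgClosed.exists_pow_nat_eq (-(r * w 2 3)) (n := 2) (by norm_num)
  obtain ⟨c, hc⟩ := IsAlgClosed.exists_pow_nat_eq (-w 0 3) (n := 2) (by norm_num)
  obtain ⟨d, hd⟩ := IsAlgClosed.exists_pow_nat_eq (-w 0 2) (n := 2) (by norm_num)
  have ha0 : a ≠ 0 := by
    rintro rfl
    exact mul_ne_zero hr0 h22 (by rw [← ha]; ring)
  have hb0 : b ≠ 0 := by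
    rintro rfl
    exact mul_ne_zero hr0 h23 (by linear_combination hb)
  have hc0 : c ≠ 0 := by
    rintro rfl
    exact hw.w03 (by linear_combination hc)
  have hd0 : d ≠ 0 := by
    rintro rfl
    exact hw.w02 (by linear_combination hd)
  obtain ⟨p1, hp1⟩ : ∃ p, 4 * p * a * b = w 0 1 := ⟨w 0 1 / (4 * a * b), by field_simp⟩
  obtain ⟨n, p4, hn1, hn2⟩ : ∃ n p, 2 * p * c ^ 2 = -w 1 3 + n * c ^ 2 ∧
      2 * p * d ^ 2 = w 1 2 - n * d ^ 2 := by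
    refine ⟨(w 1 2 / d ^ 2 + w 1 3 / c ^ 2) / 2, (w 1 2 / d ^ 2 - w 1 3 / c ^ 2) / 4, ?_, ?_⟩
    · field_simp
      ring
    · field_simp
      ring
  obtain ⟨p3, hp3⟩ : ∃ p, 4 * p * a * b = -w 1 1 - n * w 0 1 :=
    ⟨(-w 1 1 - n * w 0 1) / (4 * a * b), by field_simp⟩
  obtain ⟨s, hs⟩ : ∃ s, s = -2 * c * d := ⟨_, rfl⟩
  have hs0 : s ≠ 0 := by
    rw [hs]
    exact mul_ne_zero (mul_ne_zero (by norm_num) hc0) hd0
  obtain ⟨k, p7, hk1, hk2⟩ : ∃ k p, 2 * p * a ^ 2 = s * w 3 2 - k * w 2 0 * a ^ 2 ∧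
      2 * p * b ^ 2 = s * w 3 3 + k * w 2 0 * b ^ 2 := by
    refine ⟨s * (w 3 2 / a ^ 2 - w 3 3 / b ^ 2) / (2 * w 2 0),
      s * (w 3 2 / a ^ 2 + w 3 3 / b ^ 2) / 4, ?_, ?_⟩
    · field_simp
      ring
    · field_simp
      ring
  refine ⟨![w 0 0, p1, -w 1 0 - n * w 0 0, p3, p4, s * w 3 0 + k * w 2 0,
    s * w 3 1 + k * w 2 1, p7, r * w 2 1], a, b, c, d,
    !![0, 0, r, 0; 1, 0, k, s; 1, 0, -k, -s; -n, -1, 0, 0],
    !![0, 1 / 2, 1 / 2, 0; 0, -n / 2, -n / 2, -1; -w 2 0, 0, 0, 0;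
      k * w 2 0 * s⁻¹, s⁻¹ / 2, -s⁻¹ / 2, 0], ha0, hb0, hc0, hd0, ?_⟩
  refine ⟨LU_hom a b c d, LU'_hom a b c d, LU_inv ha0 hb0 hc0 hd0, LU_inv' ha0 hb0 hc0 hd0,
    ?_, ?_⟩
  · intro l
    refine MvPolynomial.funext fun z => ?_
    rw [eval_comp]
    have h1 := LU_ev a b c d z
    simp only [aeval_eq_eval, Algebra.algebraMap_self, RingHom.id_apply] at h1
    rw [h1, Fin.sum_univ_four]
    simp only [map_add, map_mul, eval_C]
    obtain ⟨e0, e1, e2, e3⟩ := h.ev z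
    rw [e0, e1, e2, e3, hw.w04, hw.w14, hw.w24, hw.w34]
    -- `w 2 2 = -w 2 0 a²`, `w 2 3 = w 2 0 b²`
    have h22' : w 2 2 = -w 2 0 * a ^ 2 := by linear_combination w 2 0 * ha + w 2 2 * hr
    have h23' : w 2 3 = w 2 0 * b ^ 2 := by linear_combination -w 2 0 * hb + w 2 3 * hr
    fin_cases l
    · simp [P42]
      linear_combination z 2 ^ 2 * ha - z 3 ^ 2 * hb - z 0 ^ 2 * hr
    · simp [P42]
      linear_combination (z 2 * z 3) * hp1 + z 2 ^ 2 * hk1 + z 3 ^ 2 * hk2 -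
        k * z 2 ^ 2 * h22' - k * z 3 ^ 2 * h23' - z 5 ^ 2 * hc - z 4 ^ 2 * hd - z 4 * z 5 * hs
    · simp [P42]
      linear_combination (z 2 * z 3) * hp1 - z 2 ^ 2 * hk1 - z 3 ^ 2 * hk2 +
        k * z 2 ^ 2 * h22' + k * z 3 ^ 2 * h23' - z 5 ^ 2 * hc - z 4 ^ 2 * hd + z 4 * z 5 * hs
    · simp [P42]
      linear_combination (z 2 * z 3) * hp3 + z 5 ^ 2 * hn1 + n * z 5 ^ 2 * hc -
        z 4 ^ 2 * hn2 + n * z 4 ^ 2 * hd
  · ext i j
    rw [Matrix.mul_apply, Fin.sum_univ_four]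
    have hss := mul_inv_cancel₀ hs0
    fin_cases i <;> fin_cases j <;> simp
    · linear_combination -hr
    · linear_combination k * w 2 0 * hss
    · linear_combination hss / 2
    · linear_combination -hss / 2
    · linear_combination -k * w 2 0 * hss
    · linear_combination -hss / 2
    · linear_combination hss / 2
    · ring
    · ring

end Vale.Agent.P297.C8V
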