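import Vale.Agent.P297.H10.V3.Tr
import Vale.Agent.P297.H10.V3.Form8
import Vale.Agent.P297.H600.C8Link

/-!
The normal form for the group `ℤ/8`.
-/

open MvPolynomial

namespace Vale.Agent.P297.C8V

open Vale.Agent.P297.C8U (P8)

variable {u : Fin 4 → Fin 4 → ℂ} {F : Fin 4 → MvPolynomial (Fin 7) ℂ}

theorem Form8.ev (h : Form8 u F) (z : Fin 7 → ℂ) :
    eval z (F 0) = u 0 0 * z 0 ^ 2 + u 0 1 * z 4 ^ 2 + u 0 2 * (z 2 * z 6) +
      u 0 3 * (z 3 * z 5) ∧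
    eval z (F 1) = u 1 0 * (z 0 * z 2) + u 1 1 * (z 4 * z 6) + u 1 2 * z 1 ^ 2 +
      u 1 3 * z 5 ^ 2 ∧
    eval z (F 2) = u 2 0 * z 2 ^ 2 + u 2 1 * z 6 ^ 2 + u 2 2 * (z 0 * z 4) +
      u 2 3 * (z 1 * z 3) ∧
    eval z (F 3) = u 3 0 * (z 0 * z 6) + u 3 1 * (z 2 * z 4) + u 3 2 * (z 1 * z 5) +
      u 3 3 * z 3 ^ 2 := by
  refine ⟨?_, ?_, ?_, ?_⟩
  · rw [h.f0]
    simp only [map_add, map_mul, eval_C, eval_X]
    ring
  · rw [h.f1]
    simp only [map_add, map_mul, eval_C, eval_X]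
    ring
  · rw [h.f2]
    simp only [map_add, map_mul, eval_C, eval_X]
    ring
  · rw [h.f3]
    simp only [map_add, map_mul, eval_C, eval_X]
    ring

theorem Form8.ne (h : Form8 u F) (hf : Free ![1, -1, 1, -1, 1, -1, 1] F) :
    u 1 2 ≠ 0 ∧ u 1 3 ≠ 0 ∧ u 3 2 ≠ 0 ∧ u 3 3 ≠ 0 := by
  have key : ∀ a b c : ℂ, u 0 3 * (b * c) = 0 → u 1 2 * a ^ 2 + u 1 3 * c ^ 2 = 0 →
      u 2 3 * (a * b) = 0 → u 3 2 * (a * c) + u 3 3 * b ^ 2 = 0 → a = 0 ∧ b = 0 ∧ c = 0 := by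
    intro a b c h0 h1 h2 h3
    by_contra hne
    obtain ⟨i, hi⟩ := hf ![0, a, 0, b, 0, c, 0] (-1) (by
      intro h4
      apply hne
      exact ⟨congrFun h4 1, congrFun h4 3, congrFun h4 5⟩) (by
      intro j
      fin_cases j
      · change (1 : ℂ) * 0 = -1 * 0
        ring
      · rfl
      · change (1 : ℂ) * 0 = -1 * 0
        ring
      · rfl
      · change (1 : ℂ) * 0 = -1 * 0
        ring
      · rfl
      · change (1 : ℂ) * 0 = -1 * 0
        ring)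
    obtain ⟨e0, e1, e2, e3⟩ := h.ev ![0, a, 0, b, 0, c, 0]
    apply hi
    fin_cases i
    · refine e0.trans ?_
      change u 0 0 * (0 : ℂ) ^ 2 + u 0 1 * (0 : ℂ) ^ 2 + u 0 2 * ((0 : ℂ) * 0) +
        u 0 3 * (b * c) = 0
      linear_combination h0
    · refine e1.trans ?_
      change u 1 0 * ((0 : ℂ) * 0) + u 1 1 * ((0 : ℂ) * 0) + u 1 2 * a ^ 2 + u 1 3 * c ^ 2 = 0
      linear_combination h1
    · refine e2.trans ?_
      change u 2 0 * (0 : ℂ) ^ 2 + u 2 1 * (0 : ℂ) ^ 2 + u 2 2 * ((0 : ℂ) * 0) +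
        u 2 3 * (a * b) = 0
      linear_combination h2
    · refine e3.trans ?_
      change u 3 0 * ((0 : ℂ) * 0) + u 3 1 * ((0 : ℂ) * 0) + u 3 2 * (a * c) +
        u 3 3 * b ^ 2 = 0
      linear_combination h3
  have h12 : u 1 2 ≠ 0 := by
    intro h0
    have := key 1 0 0 (by ring) (by rw [h0]; ring) (by ring) (by ring)
    exact one_ne_zero this.1
  have h13 : u 1 3 ≠ 0 := by
    intro h0
    have := key 0 0 1 (by ring) (by rw [h0]; ring) (by ring) (by ring)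
    exact one_ne_zero this.2.2
  have h33 : u 3 3 ≠ 0 := by
    intro h0
    have := key 0 1 0 (by ring) (by ring) (by ring) (by rw [h0]; ring)
    exact one_ne_zero this.2.1
  refine ⟨h12, h13, ?_, h33⟩
  intro h0
  obtain ⟨r, hr⟩ := IsAlgClosed.exists_pow_nat_eq (-u 1 3 / u 1 2) (n := 2) (by norm_num)
  have := key r 0 1 (by ring) (by rw [hr]; field_simp; ring) (by ring) (by rw [h0]; ring)
  exact one_ne_zero this.2.2

/-- the change of coordinates -/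
noncomputable def L8 (a b c : ℂ) : Fin 7 → MvPolynomial (Fin 7) ℂ :=
  ![X 0, X 4, X 2, X 6, C (-Complex.I / 2) * (C a * X 1 - C b * X 5),
    C (1 / 2) * (C a * X 1 + C b * X 5), C c * X 3]

/-- the inverse change of coordinates -/
noncomputable def L8' (a b c : ℂ) : Fin 7 → MvPolynomial (Fin 7) ℂ :=
  ![X 0, C a⁻¹ * (X 5 + C Complex.I * X 4), X 2, C c⁻¹ * X 6, X 1,
    C b⁻¹ * (X 5 - C Complex.I * X 4), X 3]

theorem homC (c : ℂ) {P : MvPolynomial (Fin 7) ℂ} (h : P.IsHomogeneous 1) :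
    (C c * P).IsHomogeneous 1 := by
  have := (isHomogeneous_C (Fin 7) c).mul h
  rwa [zero_add] at this

theorem L8_hom (a b c : ℂ) (j : Fin 7) : (L8 a b c j).IsHomogeneous 1 := by
  fin_cases j
  · exact isHomogeneous_X _ _
  · exact isHomogeneous_X _ _
  · exact isHomogeneous_X _ _
  · exact isHomogeneous_X _ _
  · exact homC _ ((homC _ (isHomogeneous_X _ _)).sub (homC _ (isHomogeneous_X _ _)))
  · exact homC _ ((homC _ (isHomogeneous_X _ _)).add (homC _ (isHomogeneous_X _ _)))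
  · exact homC _ (isHomogeneous_X _ _)

theorem L8'_hom (a b c : ℂ) (j : Fin 7) : (L8' a b c j).IsHomogeneous 1 := by
  fin_cases j
  · exact isHomogeneous_X _ _
  · exact homC _ ((isHomogeneous_X _ _).add (homC _ (isHomogeneous_X _ _)))
  · exact isHomogeneous_X _ _
  · exact homC _ (isHomogeneous_X _ _)
  · exact isHomogeneous_X _ _
  · exact homC _ ((isHomogeneous_X _ _).sub (homC _ (isHomogeneous_X _ _)))
  · exact isHomogeneous_X _ _

/-- values -/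
theorem L8_ev {R : Type*} [CommRing R] [Algebra ℂ R] (a b c : ℂ) (z : Fin 7 → R) :
    (fun j => aeval z (L8 a b c j)) = ![z 0, z 4, z 2, z 6,
      algebraMap ℂ R (-Complex.I / 2) * (algebraMap ℂ R a * z 1 - algebraMap ℂ R b * z 5),
      algebraMap ℂ R (1 / 2) * (algebraMap ℂ R a * z 1 + algebraMap ℂ R b * z 5),
      algebraMap ℂ R c * z 3] := by
  funext j
  fin_cases j <;> simp [L8]

theorem L8'_ev {R : Type*} [CommRing R] [Algebra ℂ R] (a b c : ℂ) (z : Fin 7 → R) :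
    (fun j => aeval z (L8' a b c j)) = ![z 0,
      algebraMap ℂ R a⁻¹ * (z 5 + algebraMap ℂ R Complex.I * z 4), z 2,
      algebraMap ℂ R c⁻¹ * z 6, z 1,
      algebraMap ℂ R b⁻¹ * (z 5 - algebraMap ℂ R Complex.I * z 4), z 3] := by
  funext j
  fin_cases j <;> simp [L8']

theorem eval_ext {P Q : MvPolynomial (Fin 7) ℂ} (h : ∀ z : Fin 7 → ℂ, eval z P = eval z Q) :
    P = Q := MvPolynomial.funext h

theorem L8_inv {a b c : ℂ} (ha : a ≠ 0) (hb : b ≠ 0) (hc : c ≠ 0) (j : Fin 7) :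
    aeval (L8 a b c) (L8' a b c j) = X j := by
  refine eval_ext fun z => ?_
  rw [eval_comp, eval_X]
  have h1 := L8_ev a b c z
  simp only [aeval_eq_eval, Algebra.algebraMap_self, RingHom.id_apply] at h1
  rw [h1]
  have h2 := congrFun (L8'_ev a b c (![z 0, z 4, z 2, z 6, -Complex.I / 2 * (a * z 1 - b * z 5),
    1 / 2 * (a * z 1 + b * z 5), c * z 3])) j
  simp only [aeval_eq_eval, Algebra.algebraMap_self, RingHom.id_apply] at h2
  rw [h2]
  have hI := Complex.I_sq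
  fin_cases j
  · rfl
  · change a⁻¹ * (1 / 2 * (a * z 1 + b * z 5) +
      Complex.I * (-Complex.I / 2 * (a * z 1 - b * z 5))) = z 1
    field_simp
    linear_combination (-a * z 1 + b * z 5) * hI
  · rfl
  · change c⁻¹ * (c * z 3) = z 3
    field_simp
  · rfl
  · change b⁻¹ * (1 / 2 * (a * z 1 + b * z 5) -
      Complex.I * (-Complex.I / 2 * (a * z 1 - b * z 5))) = z 5
    field_simp
    linear_combination (a * z 1 - b * z 5) * hI
  · rfl

theorem L8_inv' {a b c : ℂ} (ha : a ≠ 0) (hb : b ≠ 0) (hc : c ≠ 0) (j : Fin 7) :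
    aeval (L8' a b c) (L8 a b c j) = X j := by
  refine eval_ext fun z => ?_
  rw [eval_comp, eval_X]
  have h1 := L8'_ev a b c z
  simp only [aeval_eq_eval, Algebra.algebraMap_self, RingHom.id_apply] at h1
  rw [h1]
  have h2 := congrFun (L8_ev a b c (![z 0, a⁻¹ * (z 5 + Complex.I * z 4), z 2, c⁻¹ * z 6, z 1,
    b⁻¹ * (z 5 - Complex.I * z 4), z 3])) j
  simp only [aeval_eq_eval, Algebra.algebraMap_self, RingHom.id_apply] at h2
  rw [h2]
  have hI := Complex.I_sq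
  fin_cases j
  · rfl
  · rfl
  · rfl
  · rfl
  · change -Complex.I / 2 * (a * (a⁻¹ * (z 5 + Complex.I * z 4)) -
      b * (b⁻¹ * (z 5 - Complex.I * z 4))) = z 4
    field_simp
    linear_combination (-2 * z 4) * hI
  · change 1 / 2 * (a * (a⁻¹ * (z 5 + Complex.I * z 4)) +
      b * (b⁻¹ * (z 5 - Complex.I * z 4))) = z 5
    field_simp
    ring
  · change c * (c⁻¹ * z 6) = z 6
    field_simp

/-- The normal form. -/
theorem Form8.link (h : Form8 u F) (hf : Free ![1, -1, 1, -1, 1, -1, 1] F) (h03 : u 0 3 ≠ 0)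
    (h23 : u 2 3 ≠ 0) :
    ∃ (m : Fin 10 → ℂ) (a b c : ℂ) (R R' : Matrix (Fin 4) (Fin 4) ℂ), a ≠ 0 ∧ b ≠ 0 ∧ c ≠ 0 ∧
      Link F (P8 m) (L8 a b c) (L8' a b c) R R' := by
  obtain ⟨h12, h13, h32, h33⟩ := h.ne hf
  have hI := Complex.I_sq
  obtain ⟨a, ha⟩ := IsAlgClosed.exists_pow_nat_eq (2 * Complex.I * u 1 2) (n := 2) (by norm_num)
  obtain ⟨b, hb⟩ := IsAlgClosed.exists_pow_nat_eq (-(2 * Complex.I * u 1 3)) (n := 2)
    (by norm_num)
  have ha0 : a ≠ 0 := by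
    rintro rfl
    have : 2 * Complex.I * u 1 2 ≠ 0 := mul_ne_zero (mul_ne_zero two_ne_zero Complex.I_ne_zero) h12
    exact this (by rw [← ha]; ring)
  have hb0 : b ≠ 0 := by
    rintro rfl
    have : 2 * Complex.I * u 1 3 ≠ 0 := mul_ne_zero (mul_ne_zero two_ne_zero Complex.I_ne_zero) h13
    exact this (by linear_combination hb)
  obtain ⟨s₀, hs₀⟩ : ∃ s₀, s₀ * u 3 2 = a * b := ⟨a * b / u 3 2, by field_simp⟩
  have hs0 : s₀ ≠ 0 := by
    rintro rfl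
    exact mul_ne_zero ha0 hb0 (by rw [← hs₀]; ring)
  obtain ⟨c, hc⟩ := IsAlgClosed.exists_pow_nat_eq (s₀ * u 3 3) (n := 2) (by norm_num)
  have hc0 : c ≠ 0 := by
    rintro rfl
    exact mul_ne_zero hs0 h33 (by rw [← hc]; ring)
  obtain ⟨s₂, hs₂⟩ : ∃ s₂, s₂ * u 0 3 = c * b := ⟨c * b / u 0 3, by field_simp⟩
  obtain ⟨s₃, hs₃⟩ : ∃ s₃, s₃ * u 2 3 = c * a := ⟨c * a / u 2 3, by field_simp⟩
  have hs2 : s₂ ≠ 0 := by
    rintro rfl
    exact mul_ne_zero hc0 hb0 (by rw [← hs₂]; ring)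
  have hs3 : s₃ ≠ 0 := by
    rintro rfl
    exact mul_ne_zero hc0 ha0 (by rw [← hs₃]; ring)
  refine ⟨![-s₀ * u 3 0, -s₀ * u 3 1, -s₂ * u 0 0, -s₂ * u 0 1, -s₂ * u 0 2, -u 1 0, -u 1 1,
    -s₃ * u 2 0, -s₃ * u 2 1, -s₃ * u 2 2], a, b, c,
    !![0, 0, 0, -s₀; -s₂, 0, -s₃, 0; -Complex.I * s₂, 0, Complex.I * s₃, 0; 0, -1, 0, 0],
    !![0, -(2 * s₂)⁻¹, Complex.I * (2 * s₂)⁻¹, 0; 0, 0, 0, -1;
      0, -(2 * s₃)⁻¹, -Complex.I * (2 * s₃)⁻¹, 0; -s₀⁻¹, 0, 0, 0], ha0, hb0, hc0, ?_⟩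
  refine ⟨L8_hom a b c, L8'_hom a b c, L8_inv ha0 hb0 hc0, L8_inv' ha0 hb0 hc0, ?_, ?_⟩
  · intro k
    refine eval_ext fun z => ?_
    rw [eval_comp]
    have h1 := L8_ev a b c z
    simp only [aeval_eq_eval, Algebra.algebraMap_self, RingHom.id_apply] at h1
    rw [h1, Fin.sum_univ_four]
    simp only [map_add, map_mul, eval_C]
    obtain ⟨e0, e1, e2, e3⟩ := h.ev z
    rw [e0, e1, e2, e3]
    fin_cases k
    · simp [P8]
      linear_combination (z 1 * z 5) * hs₀ - z 3 ^ 2 * hc +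
        (- (a * z 1 - b * z 5) ^ 2 / 4) * hI
    · simp [P8]
      linear_combination (z 3 * z 5) * hs₂ + (z 1 * z 3) * hs₃
    · simp [P8]
      linear_combination Complex.I * (z 3 * z 5) * hs₂ - Complex.I * (z 1 * z 3) * hs₃
    · simp [P8]
      linear_combination Complex.I / 2 * z 1 ^ 2 * ha - Complex.I / 2 * z 5 ^ 2 * hb +
        (z 1 ^ 2 * u 1 2 + z 5 ^ 2 * u 1 3) * hI
  · ext k l
    rw [Matrix.mul_apply, Fin.sum_univ_four]
    fin_cases k <;> fin_cases l <;> simp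
    · exact mul_inv_cancel₀ hs0
    · linear_combination (2⁻¹ : ℂ) * mul_inv_cancel₀ hs2 + (2⁻¹ : ℂ) * mul_inv_cancel₀ hs3
    · linear_combination -Complex.I * (2⁻¹ : ℂ) * mul_inv_cancel₀ hs2 +
        Complex.I * (2⁻¹ : ℂ) * mul_inv_cancel₀ hs3
    · linear_combination Complex.I * (2⁻¹ : ℂ) * mul_inv_cancel₀ hs2 -
        Complex.I * (2⁻¹ : ℂ) * mul_inv_cancel₀ hs3
    · linear_combination -Complex.I ^ 2 * (2⁻¹ : ℂ) * mul_inv_cancel₀ hs2 -
        Complex.I ^ 2 * (2⁻¹ : ℂ) * mul_inv_cancel₀ hs3 - hI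

end Vale.Agent.P297.C8V
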