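import Vale.Agent.P297.H10.V3.Tr
import Vale.Agent.P297.H10.V3.FormQ
import Vale.Agent.P297.H600.C8Link

/-!
The normal form for the group `Q₈`.
-/

open MvPolynomial

namespace Vale.Agent.P297.C8V

open Vale.Agent.P297.C8U (PQ)

variable {u : Fin 4 → Fin 4 → ℂ} {F : Fin 4 → MvPolynomial (Fin 7) ℂ}

theorem FormQ.ev (h : FormQ u F) (z : Fin 7 → ℂ) :
    eval z (F 0) = u 0 0 * (z 0 * z 3 - z 1 * z 2) + u 0 1 * z 4 ^ 2 + u 0 2 * z 5 ^ 2 +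
      u 0 3 * z 6 ^ 2 ∧
    eval z (F 1) = u 1 0 * (z 0 * z 1) + u 1 1 * (z 0 * z 3 + z 1 * z 2) + u 1 2 * (z 2 * z 3) +
      u 1 3 * (z 5 * z 6) ∧
    eval z (F 2) = u 2 0 * (z 0 ^ 2 + z 1 ^ 2) + u 2 1 * (z 0 * z 2 + z 1 * z 3) +
      u 2 2 * (z 2 ^ 2 + z 3 ^ 2) + u 2 3 * (z 4 * z 6) ∧
    eval z (F 3) = u 3 0 * (z 0 ^ 2 - z 1 ^ 2) + u 3 1 * (z 0 * z 2 - z 1 * z 3) +
      u 3 2 * (z 2 ^ 2 - z 3 ^ 2) + u 3 3 * (z 4 * z 5) := by
  refine ⟨?_, ?_, ?_, ?_⟩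
  · rw [h.f0]
    simp only [map_add, map_sub, map_mul, eval_C, eval_X]
    ring
  · rw [h.f1]
    simp only [map_add, map_mul, eval_C, eval_X]
  · rw [h.f2]
    simp only [map_add, map_mul, eval_C, eval_X]
    ring
  · rw [h.f3]
    simp only [map_add, map_sub, map_mul, eval_C, eval_X]
    ring

theorem FormQ.ne (h : FormQ u F) (hf : Free ![-1, -1, -1, -1, 1, 1, 1] F) :
    (u 0 1 ≠ 0 ∧ u 0 2 ≠ 0 ∧ u 0 3 ≠ 0) ∧ u 1 3 ≠ 0 ∧ u 2 3 ≠ 0 ∧ u 3 3 ≠ 0 := by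
  have key : ∀ a b c : ℂ, u 0 1 * a ^ 2 + u 0 2 * b ^ 2 + u 0 3 * c ^ 2 = 0 →
      u 1 3 * (b * c) = 0 → u 2 3 * (a * c) = 0 → u 3 3 * (a * b) = 0 →
      a = 0 ∧ b = 0 ∧ c = 0 := by
    intro a b c h0 h1 h2 h3
    by_contra hne
    obtain ⟨i, hi⟩ := hf ![0, 0, 0, 0, a, b, c] 1 (by
      intro h4
      apply hne
      exact ⟨congrFun h4 4, congrFun h4 5, congrFun h4 6⟩) (by
      intro j
      fin_cases j
      · change (-1 : ℂ) * 0 = 1 * 0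
        ring
      · change (-1 : ℂ) * 0 = 1 * 0
        ring
      · change (-1 : ℂ) * 0 = 1 * 0
        ring
      · change (-1 : ℂ) * 0 = 1 * 0
        ring
      · rfl
      · rfl
      · rfl)
    obtain ⟨e0, e1, e2, e3⟩ := h.ev ![0, 0, 0, 0, a, b, c]
    apply hi
    fin_cases i
    · refine e0.trans ?_
      change u 0 0 * ((0 : ℂ) * 0 - 0 * 0) + u 0 1 * a ^ 2 + u 0 2 * b ^ 2 + u 0 3 * c ^ 2 = 0
      linear_combination h0
    · refine e1.trans ?_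
      change u 1 0 * ((0 : ℂ) * 0) + u 1 1 * ((0 : ℂ) * 0 + 0 * 0) + u 1 2 * ((0 : ℂ) * 0) +
        u 1 3 * (b * c) = 0
      linear_combination h1
    · refine e2.trans ?_
      change u 2 0 * ((0 : ℂ) ^ 2 + 0 ^ 2) + u 2 1 * ((0 : ℂ) * 0 + 0 * 0) +
        u 2 2 * ((0 : ℂ) ^ 2 + 0 ^ 2) + u 2 3 * (a * c) = 0
      linear_combination h2
    · refine e3.trans ?_
      change u 3 0 * ((0 : ℂ) ^ 2 - 0 ^ 2) + u 3 1 * ((0 : ℂ) * 0 - 0 * 0) +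
        u 3 2 * ((0 : ℂ) ^ 2 - 0 ^ 2) + u 3 3 * (a * b) = 0
      linear_combination h3
  have h01 : u 0 1 ≠ 0 := by
    intro h0
    have := key 1 0 0 (by rw [h0]; ring) (by ring) (by ring) (by ring)
    exact one_ne_zero this.1
  have h02 : u 0 2 ≠ 0 := by
    intro h0
    have := key 0 1 0 (by rw [h0]; ring) (by ring) (by ring) (by ring)
    exact one_ne_zero this.2.1
  have h03 : u 0 3 ≠ 0 := by
    intro h0
    have := key 0 0 1 (by rw [h0]; ring) (by ring) (by ring) (by ring)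
    exact one_ne_zero this.2.2
  refine ⟨⟨h01, h02, h03⟩, ?_, ?_, ?_⟩
  · intro h0
    obtain ⟨r, hr⟩ := IsAlgClosed.exists_pow_nat_eq (-u 0 3 / u 0 2) (n := 2) (by norm_num)
    have := key 0 r 1 (by rw [hr]; field_simp; ring) (by rw [h0]; ring) (by ring) (by ring)
    exact one_ne_zero this.2.2
  · intro h0
    obtain ⟨r, hr⟩ := IsAlgClosed.exists_pow_nat_eq (-u 0 3 / u 0 1) (n := 2) (by norm_num)
    have := key r 0 1 (by rw [hr]; field_simp; ring) (by ring) (by rw [h0]; ring) (by ring)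
    exact one_ne_zero this.2.2
  · intro h0
    obtain ⟨r, hr⟩ := IsAlgClosed.exists_pow_nat_eq (-u 0 2 / u 0 1) (n := 2) (by norm_num)
    have := key r 1 0 (by rw [hr]; field_simp; ring) (by ring) (by ring) (by rw [h0]; ring)
    exact one_ne_zero this.2.1

/-- the change of coordinates -/
noncomputable def LQ (a b c : ℂ) : Fin 7 → MvPolynomial (Fin 7) ℂ :=
  ![X 0, X 1, X 2, X 3, C a * X 4, C b * X 5, C c * X 6]

theorem LQ_hom (a b c : ℂ) (j : Fin 7) : (LQ a b c j).IsHomogeneous 1 := by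
  have homC : ∀ (c : ℂ) (j : Fin 7), (C c * X j : MvPolynomial (Fin 7) ℂ).IsHomogeneous 1 := by
    intro c j
    have := (isHomogeneous_C (Fin 7) c).mul (isHomogeneous_X ℂ j)
    rwa [zero_add] at this
  fin_cases j
  · exact isHomogeneous_X _ _
  · exact isHomogeneous_X _ _
  · exact isHomogeneous_X _ _
  · exact isHomogeneous_X _ _
  · exact homC _ _
  · exact homC _ _
  · exact homC _ _

/-- values -/
theorem LQ_ev {R : Type*} [CommRing R] [Algebra ℂ R] (a b c : ℂ) (z : Fin 7 → R) :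
    (fun j => aeval z (LQ a b c j)) = ![z 0, z 1, z 2, z 3, algebraMap ℂ R a * z 4,
      algebraMap ℂ R b * z 5, algebraMap ℂ R c * z 6] := by
  funext j
  fin_cases j <;> simp [LQ]

theorem LQ_inv {a b c : ℂ} (ha : a ≠ 0) (hb : b ≠ 0) (hc : c ≠ 0) (j : Fin 7) :
    aeval (LQ a b c) (LQ a⁻¹ b⁻¹ c⁻¹ j) = X j := by
  refine MvPolynomial.funext fun z => ?_
  rw [eval_comp, eval_X]
  have h1 := LQ_ev a b c z
  simp only [aeval_eq_eval, Algebra.algebraMap_self, RingHom.id_apply] at h1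
  rw [h1]
  have h2 := congrFun (LQ_ev a⁻¹ b⁻¹ c⁻¹ (![z 0, z 1, z 2, z 3, a * z 4, b * z 5, c * z 6])) j
  simp only [aeval_eq_eval, Algebra.algebraMap_self, RingHom.id_apply] at h2
  rw [h2]
  fin_cases j
  · rfl
  · rfl
  · rfl
  · rfl
  · change a⁻¹ * (a * z 4) = z 4
    field_simp
  · change b⁻¹ * (b * z 5) = z 5
    field_simp
  · change c⁻¹ * (c * z 6) = z 6
    field_simp

theorem LQ_inv' {a b c : ℂ} (ha : a ≠ 0) (hb : b ≠ 0) (hc : c ≠ 0) (j : Fin 7) :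
    aeval (LQ a⁻¹ b⁻¹ c⁻¹) (LQ a b c j) = X j := by
  have := LQ_inv (inv_ne_zero ha) (inv_ne_zero hb) (inv_ne_zero hc) j
  rwa [inv_inv, inv_inv, inv_inv] at this

/-- The normal form. -/
theorem FormQ.link (h : FormQ u F) (hf : Free ![-1, -1, -1, -1, 1, 1, 1] F) :
    ∃ (e : ℂ) (p q r : Fin 3 → ℂ) (a b c : ℂ) (R R' : Matrix (Fin 4) (Fin 4) ℂ),
      a ≠ 0 ∧ b ≠ 0 ∧ c ≠ 0 ∧ Link F (PQ e p q r) (LQ a b c) (LQ a⁻¹ b⁻¹ c⁻¹) R R' := by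
  obtain ⟨⟨h01, h02, h03⟩, h13, h23, h33⟩ := h.ne hf
  obtain ⟨a, ha⟩ := IsAlgClosed.exists_pow_nat_eq (u 0 1) (n := 2) (by norm_num)
  obtain ⟨b, hb⟩ := IsAlgClosed.exists_pow_nat_eq (u 0 2) (n := 2) (by norm_num)
  obtain ⟨c, hc⟩ := IsAlgClosed.exists_pow_nat_eq (u 0 3) (n := 2) (by norm_num)
  have ha0 : a ≠ 0 := by
    rintro rfl
    exact h01 (by rw [← ha]; ring)
  have hb0 : b ≠ 0 := by
    rintro rfl
    exact h02 (by rw [← hb]; ring)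
  have hc0 : c ≠ 0 := by
    rintro rfl
    exact h03 (by rw [← hc]; ring)
  obtain ⟨s₁, hs₁⟩ : ∃ s, s * u 1 3 = 2 * b * c := ⟨2 * b * c / u 1 3, by field_simp⟩
  obtain ⟨s₂, hs₂⟩ : ∃ s, s * u 2 3 = 2 * a * c := ⟨2 * a * c / u 2 3, by field_simp⟩
  obtain ⟨s₃, hs₃⟩ : ∃ s, s * u 3 3 = 2 * a * b := ⟨2 * a * b / u 3 3, by field_simp⟩
  have hs1 : s₁ ≠ 0 := by
    rintro rfl
    exact mul_ne_zero (mul_ne_zero two_ne_zero hb0) hc0 (by rw [← hs₁]; ring)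
  have hs2 : s₂ ≠ 0 := by
    rintro rfl
    exact mul_ne_zero (mul_ne_zero two_ne_zero ha0) hc0 (by rw [← hs₂]; ring)
  have hs3 : s₃ ≠ 0 := by
    rintro rfl
    exact mul_ne_zero (mul_ne_zero two_ne_zero ha0) hb0 (by rw [← hs₃]; ring)
  refine ⟨-u 0 0 / 2, ![-s₁ * u 1 0 / 2, -s₂ * u 2 0, -s₃ * u 3 0],
    ![-s₁ * u 1 1 / 2, -s₂ * u 2 1 / 2, -s₃ * u 3 1 / 2],
    ![-s₁ * u 1 2 / 2, -s₂ * u 2 2, -s₃ * u 3 2], a, b, c,
    !![-1, 0, 0, 0; 0, -s₁, 0, 0; 0, 0, -s₂, 0; 0, 0, 0, -s₃],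
    !![-1, 0, 0, 0; 0, -s₁⁻¹, 0, 0; 0, 0, -s₂⁻¹, 0; 0, 0, 0, -s₃⁻¹], ha0, hb0, hc0, ?_⟩
  refine ⟨LQ_hom a b c, LQ_hom _ _ _, LQ_inv ha0 hb0 hc0, LQ_inv' ha0 hb0 hc0, ?_, ?_⟩
  · intro k
    refine MvPolynomial.funext fun z => ?_
    rw [eval_comp]
    have h1 := LQ_ev a b c z
    simp only [aeval_eq_eval, Algebra.algebraMap_self, RingHom.id_apply] at h1
    rw [h1, Fin.sum_univ_four]
    simp only [map_add, map_mul, eval_C]
    obtain ⟨e0, e1, e2, e3⟩ := h.ev z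
    rw [e0, e1, e2, e3]
    fin_cases k
    · simp [PQ]
      linear_combination -z 4 ^ 2 * ha - z 5 ^ 2 * hb - z 6 ^ 2 * hc
    · simp [PQ]
      linear_combination (z 5 * z 6) * hs₁
    · simp [PQ]
      linear_combination (z 4 * z 6) * hs₂
    · simp [PQ]
      linear_combination (z 4 * z 5) * hs₃
  · ext k l
    rw [Matrix.mul_apply, Fin.sum_univ_four]
    fin_cases k <;> fin_cases l <;> simp
    · exact mul_inv_cancel₀ hs1
    · exact mul_inv_cancel₀ hs2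
    · exact mul_inv_cancel₀ hs3

end Vale.Agent.P297.C8V
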