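import Vale.Agent.P297.H10.V3.Link8
import Vale.Agent.P297.H10.V3.LinkQ
import Vale.Agent.P297.H55.CanonV

/-!
The groups `ℤ/8` and `Q₈` for semi-invariant quadrics.
-/

open MvPolynomial

namespace Vale.Agent.P297.C8V

open Vale.Agent.P297.C8U (P8 PQ F8 FQ)

theorem f8_P8 (m : Fin 10 → ℂ) : F8 m (P8 m) where
  e0 := by
    change C (m 0) * (X 0 * X 3) + C (m 1) * (X 1 * X 2) - (X 4 ^ 2 + X 5 ^ 2 + X 6 ^ 2) = _
    simp only [C8U.q, C_1]
    ring
  e1 := by
    change C (m 2) * X 0 ^ 2 + C (m 3) * X 1 ^ 2 + C (m 4) * (X 2 * X 3) +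
      C (m 7) * X 2 ^ 2 + C (m 8) * X 3 ^ 2 + C (m 9) * (X 0 * X 1) - 2 * (X 5 * X 6) = _
    simp only [C8U.q, C8U.C_two]
    ring
  e2 := by
    change C Complex.I * (C (m 2) * X 0 ^ 2 + C (m 3) * X 1 ^ 2 + C (m 4) * (X 2 * X 3) -
      C (m 7) * X 2 ^ 2 - C (m 8) * X 3 ^ 2 - C (m 9) * (X 0 * X 1)) - 2 * (X 4 * X 6) = _
    simp only [C8U.q, C8U.C_two]
    ring
  e3 := by
    change C (m 5) * (X 0 * X 2) + C (m 6) * (X 1 * X 3) - 2 * (X 4 * X 5) = _
    simp only [C8U.q, C8U.C_two]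

theorem fq_PQ (a : ℂ) (x y z : Fin 3 → ℂ) : FQ a x y z (PQ a x y z) where
  e0 := by
    change C a * (2 * (X 0 * X 3 - X 1 * X 2)) - (X 4 ^ 2 + X 5 ^ 2 + X 6 ^ 2) = _
    simp only [C8U.q, C_1, C_mul, C8U.C_two]
    ring
  e1 := by
    change 2 * (C (x 0) * (X 0 * X 1) + C (y 0) * (X 0 * X 3 + X 1 * X 2) +
      C (z 0) * (X 2 * X 3)) - 2 * (X 5 * X 6) = _
    simp only [C8U.q, C_mul, C8U.C_two]
    ring
  e2 := by
    change C (x 1) * (X 0 ^ 2 + X 1 ^ 2) + 2 * (C (y 1) * (X 0 * X 2 + X 1 * X 3)) +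
      C (z 1) * (X 2 ^ 2 + X 3 ^ 2) - 2 * (X 4 * X 6) = _
    simp only [C8U.q, C_mul, C8U.C_two]
    ring
  e3 := by
    change C (x 2) * (X 0 ^ 2 - X 1 ^ 2) + 2 * (C (y 2) * (X 0 * X 2 - X 1 * X 3)) +
      C (z 2) * (X 2 ^ 2 - X 3 ^ 2) - 2 * (X 4 * X 5) = _
    simp only [C8U.q, C_mul, C8U.C_two]
    ring

theorem coeff_zero_of {l : Fin 7} {a : ℂ} {i j : Fin 7} (hi : i ≠ 3) (hj : j ≠ 3)
    (s : Fin 7 →₀ ℕ) (hs : s = Finsupp.single 3 1 + Finsupp.single l 1) :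
    coeff s (C a * (X i * X j) : MvPolynomial (Fin 7) ℂ) = 0 := by
  rw [coeff_C_mul, X, X, monomial_mul, coeff_monomial, if_neg, mul_zero]
  intro h
  have := DFunLike.congr_fun (h.trans hs) 3
  rw [Finsupp.add_apply, Finsupp.add_apply, Finsupp.single_eq_of_ne hi.symm,
    Finsupp.single_eq_of_ne hj.symm, Finsupp.single_eq_same] at this
  omega

section

variable {E : Type} [Field E] [Algebra ℂ E] {t : Fin 7 → E}
  {F : Fin 4 → MvPolynomial (Fin 7) ℂ}

/-- The common zeros of the normal form. -/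
theorem free_of_link {F' : Fin 4 → MvPolynomial (Fin 7) ℂ} {L L' : Fin 7 → MvPolynomial (Fin 7) ℂ}
    {R R' : Matrix (Fin 4) (Fin 4) ℂ} (h : Link F F' L L' R R') {c : Fin 7 → ℂ} (hf : Free c F)
    (a : ℂ) (hL : ∀ y : Fin 7 → ℂ, y 4 = 0 → y 5 = 0 → y 6 = 0 →
      ∀ j, c j ≠ a → eval y (L' j) = 0) (y : Fin 7 → ℂ) (hy : y ≠ 0) (h4 : y 4 = 0)
    (h5 : y 5 = 0) (h6 : y 6 = 0) : ∃ i, eval y (F' i) ≠ 0 := by
  by_contra hne
  push Not at hne
  have hz : (fun i => eval y (L' i)) ≠ 0 := by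
    intro h0
    apply hy
    funext j
    rw [← h.pt y j, h0]
    have := eval_smul' (h.hL j) 0 0
    rw [zero_smul] at this
    rw [this]
    simp
  obtain ⟨i, hi⟩ := hf.coord a hz (hL y h4 h5 h6)
  exact hi (h.zero' hne i)

theorem bloch_form8 {ζ : ℂ} (hζ : ζ ^ 2 = Complex.I) {u : Fin 4 → Fin 4 → ℂ} (hu : Form8 u F)
    (hf : Free ![1, -1, 1, -1, 1, -1, 1] F) (hi : Iso F) (ht : IsFF F t) (h03 : u 0 3 ≠ 0)
    (h23 : u 2 3 ≠ 0) :
    ∃ G : E ≃ₐ[ℂ] E, Acts t (fun j => ζ ^ (j : ℕ)) id G ∧ BlochSub (Subgroup.zpowers G) := by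
  obtain ⟨m, a, b, c, R, R', ha, hb, hc, hL⟩ := hu.link hf h03 h23
  have hI := Complex.I_sq
  have h4 : ζ ^ 4 = -1 := by
    linear_combination (ζ ^ 2 + Complex.I) * hζ + Complex.I_sq
  have hε : (ζ ^ 3) ^ 2 = -Complex.I := by
    linear_combination ζ ^ 2 * h4 - hζ
  obtain ⟨G, hG, hB⟩ := bloch8 (f8_P8 m) (free_of_link hL hf 1 (by
    intro y h4 h5 h6 j hj
    fin_cases j
    · exact absurd rfl hj
    · change eval y (C a⁻¹ * (X 5 + C Complex.I * X 4)) = 0
      simp [h4, h5]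
    · exact absurd rfl hj
    · change eval y (C c⁻¹ * X 6) = 0
      simp [h6]
    · exact absurd rfl hj
    · change eval y (C b⁻¹ * (X 5 - C Complex.I * X 4)) = 0
      simp [h4, h5]
    · exact absurd rfl hj)) (hL.iso hi) (hL.isFF rfl ht) hε
  refine ⟨G, ?_, hB⟩
  have h1 := ht.one
  rw [L8_ev] at hG
  have hE : ∀ z : E, algebraMap ℂ E 1 * z = z := fun z => by rw [map_one, one_mul]
  have g1 : G (t 4) = -t 4 := by
    have := hG 1
    change G (t 4) * (algebraMap ℂ E 1 * t 0) = algebraMap ℂ E (-1) * t 4 at this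
    rw [h1, hE, mul_one, map_neg, map_one, neg_one_mul] at this
    exact this
  have g2 : G (t 2) = algebraMap ℂ E Complex.I * t 2 := by
    have := hG 2
    change G (t 2) * (algebraMap ℂ E 1 * t 0) = algebraMap ℂ E Complex.I * t 2 at this
    rwa [h1, hE, mul_one] at this
  have g3 : G (t 6) = -(algebraMap ℂ E Complex.I * t 6) := by
    have := hG 3
    change G (t 6) * (algebraMap ℂ E 1 * t 0) = algebraMap ℂ E (-Complex.I) * t 6 at this
    rw [h1, hE, mul_one, map_neg, neg_mul] at this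
    exact this
  have g4 := hG 4
  have g5 := hG 5
  have g6 := hG 6
  change G (algebraMap ℂ E (-Complex.I / 2) * (algebraMap ℂ E a * t 1 - algebraMap ℂ E b * t 5)) *
    (algebraMap ℂ E 1 * t 0) = algebraMap ℂ E (-ζ ^ 3) *
      (algebraMap ℂ E (1 / 2) * (algebraMap ℂ E a * t 1 + algebraMap ℂ E b * t 5)) at g4
  change G (algebraMap ℂ E (1 / 2) * (algebraMap ℂ E a * t 1 + algebraMap ℂ E b * t 5)) *
    (algebraMap ℂ E 1 * t 0) = algebraMap ℂ E (ζ ^ 3) *
      (algebraMap ℂ E (-Complex.I / 2) * (algebraMap ℂ E a * t 1 - algebraMap ℂ E b * t 5)) at g5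
  change G (algebraMap ℂ E c * t 3) * (algebraMap ℂ E 1 * t 0) =
    algebraMap ℂ E (ζ ^ 3) * (algebraMap ℂ E c * t 3) at g6
  rw [h1, hE, mul_one] at g4 g5 g6
  simp only [map_mul, map_add, map_sub, AlgEquiv.commutes, map_neg, map_pow, map_div₀, map_one,
    map_ofNat] at g4 g5 g6
  set i : E := algebraMap ℂ E Complex.I with hi'
  set z : E := algebraMap ℂ E ζ with hz'
  have hiE : i ^ 2 = -1 := by
    rw [hi', ← map_pow, hI, map_neg, map_one]
  have hzE : z ^ 2 = i := by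
    rw [hz', hi', ← map_pow, hζ]
  have haE : algebraMap ℂ E a ≠ 0 := by
    rwa [Ne, map_eq_zero_iff _ (algebraMap ℂ E).injective]
  have hbE : algebraMap ℂ E b ≠ 0 := by
    rwa [Ne, map_eq_zero_iff _ (algebraMap ℂ E).injective]
  have hcE : algebraMap ℂ E c ≠ 0 := by
    rwa [Ne, map_eq_zero_iff _ (algebraMap ℂ E).injective]
  have g7 : G (t 3) = z ^ 3 * t 3 := mul_left_cancel₀ hcE (by linear_combination g6)
  have : CharZero E := charZero_of_injective_algebraMap (algebraMap ℂ E).injective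
  have g8 : algebraMap ℂ E a * G (t 1) = algebraMap ℂ E a * (z * t 1) := by
    linear_combination i * g4 + g5 +
      (algebraMap ℂ E a * G (t 1) - algebraMap ℂ E b * G (t 5)) / 2 * hiE -
      i * z * algebraMap ℂ E a * t 1 * hzE - z * algebraMap ℂ E a * t 1 * hiE
  have g9 : algebraMap ℂ E b * G (t 5) = algebraMap ℂ E b * (z ^ 5 * t 5) := by
    linear_combination g5 - i * g4 -
      (algebraMap ℂ E a * G (t 1) - algebraMap ℂ E b * G (t 5)) / 2 * hiE -
      z ^ 3 * algebraMap ℂ E b * t 5 * hzE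
  have g10 := mul_left_cancel₀ haE g8
  have g11 := mul_left_cancel₀ hbE g9
  intro j
  change G (t j) * (algebraMap ℂ E (ζ ^ 0) * t 0) = algebraMap ℂ E (ζ ^ (j : ℕ)) * t j
  rw [pow_zero, hE, h1, mul_one, map_pow, ← hz']
  fin_cases j
  · change G (t 0) = z ^ 0 * t 0
    rw [h1, map_one, pow_zero, one_mul]
  · change G (t 1) = z ^ 1 * t 1
    rw [pow_one, g10]
  · change G (t 2) = z ^ 2 * t 2
    rw [g2, hzE]
  · exact g7
  · change G (t 4) = z ^ 4 * t 4
    rw [g1]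
    linear_combination -t 4 * (z ^ 2 + i) * hzE - t 4 * hiE
  · exact g11
  · change G (t 6) = z ^ 6 * t 6
    rw [g3]
    linear_combination -t 6 * (z ^ 4 + z ^ 2 * i + i ^ 2) * hzE - i * t 6 * hiE

/-- The group `ℤ/8`. -/
theorem bloch_Z8 {ζ : ℂ} (hζ : ζ ^ 2 = Complex.I)
    (h : Semi (fun j => ζ ^ (j : ℕ)) id (fun k => ζ ^ (2 * (k : ℕ))) F)
    (hf : Free ![1, -1, 1, -1, 1, -1, 1] F) (hi : Iso F) (ht : IsFF F t)
    (h0 : coeff (Finsupp.single 3 1 + Finsupp.single 5 1) (F 0) ≠ 0)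
    (h2 : coeff (Finsupp.single 3 1 + Finsupp.single 1 1) (F 2) ≠ 0) :
    ∃ G : E ≃ₐ[ℂ] E, Acts t (fun j => ζ ^ (j : ℕ)) id G ∧ BlochSub (Subgroup.zpowers G) := by
  obtain ⟨u, hu⟩ := exists_form8 hζ h
  refine bloch_form8 hζ hu hf hi ht ?_ ?_
  · intro h3
    apply h0
    rw [hu.f0, h3, C_0, zero_mul, add_zero, coeff_add, coeff_add,
      coeff_zero_of (by decide) (by decide) _ rfl, coeff_zero_of (by decide) (by decide) _ rfl,
      coeff_zero_of (by decide) (by decide) _ rfl, add_zero, add_zero]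
  · intro h3
    apply h2
    rw [hu.f2, h3, C_0, zero_mul, add_zero, coeff_add, coeff_add,
      coeff_zero_of (by decide) (by decide) _ rfl, coeff_zero_of (by decide) (by decide) _ rfl,
      coeff_zero_of (by decide) (by decide) _ rfl, add_zero, add_zero]

/-- The group `Q₈`. -/
theorem bloch_Q8
    (h1 : Semi ![Complex.I, -Complex.I, Complex.I, -Complex.I, 1, -1, -1] id ![1, 1, -1, -1] F)
    (h2 : Semi ![1, -1, 1, -1, -1, 1, -1] ![1, 0, 3, 2, 4, 5, 6] ![1, -1, 1, -1] F)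
    (hf : Free ![-1, -1, -1, -1, 1, 1, 1] F) (hi : Iso F) (ht : IsFF F t) :
    ∃ G₁ G₂ : E ≃ₐ[ℂ] E,
      Acts t ![Complex.I, -Complex.I, Complex.I, -Complex.I, 1, -1, -1] id G₁ ∧
      Acts t ![1, -1, 1, -1, -1, 1, -1] ![1, 0, 3, 2, 4, 5, 6] G₂ ∧
      BlochSub (Subgroup.closure {G₁, G₂}) := by
  obtain ⟨u, hu⟩ := exists_formQ h1 h2
  obtain ⟨e, p, q, r, a, b, c, R, R', ha, hb, hc, hL⟩ := hu.link hf
  obtain ⟨G₁, G₂, hG₁, hG₂, hB⟩ := blochQ (fq_PQ e p q r) (free_of_link hL hf (-1) (by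
    intro y h4 h5 h6 j hj
    fin_cases j
    · exact absurd rfl hj
    · exact absurd rfl hj
    · exact absurd rfl hj
    · exact absurd rfl hj
    · change eval y (C a⁻¹ * X 4) = 0
      simp [h4]
    · change eval y (C b⁻¹ * X 5) = 0
      simp [h5]
    · change eval y (C c⁻¹ * X 6) = 0
      simp [h6])) (hL.iso hi) (hL.isFF rfl ht)
  refine ⟨G₁, G₂, ?_, ?_, hB⟩
  · rw [LQ_ev] at hG₁
    have h1 := ht.one
    have hE : ∀ z : E, algebraMap ℂ E 1 * z = z := fun z => by rw [map_one, one_mul]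
    have hE' : ∀ z : E, algebraMap ℂ E (-1) * z = -z := fun z => by
      rw [map_neg, map_one, neg_one_mul]
    have hi2 : algebraMap ℂ E Complex.I * algebraMap ℂ E Complex.I = -1 := by
      rw [← map_mul, Complex.I_mul_I, map_neg, map_one]
    have key : ∀ (s : ℂ) (c' : ℂ) (x : E), s ≠ 0 → G₁ (algebraMap ℂ E s * x) *
        (algebraMap ℂ E 1 * t 0) = algebraMap ℂ E c' * (algebraMap ℂ E s * x) →
        G₁ x = algebraMap ℂ E c' * x := by
      intro s c' x hs h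
      rw [hE, h1, mul_one, map_mul, AlgEquiv.commutes] at h
      have hs' : algebraMap ℂ E s ≠ 0 := by
        rwa [Ne, map_eq_zero_iff _ (algebraMap ℂ E).injective]
      exact mul_left_cancel₀ hs' (by rw [h]; ring)
    have k4 := key a (-Complex.I) (t 4) ha (hG₁ 4)
    have k5 := key b Complex.I (t 5) hb (hG₁ 5)
    have k6 := key c Complex.I (t 6) hc (hG₁ 6)
    have k1 : G₁ (t 1) = -t 1 := by
      have := hG₁ 1
      change G₁ (t 1) * (algebraMap ℂ E 1 * t 0) = algebraMap ℂ E (-1) * t 1 at this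
      rwa [hE, h1, mul_one, hE'] at this
    have k2 : G₁ (t 2) = t 2 := by
      have := hG₁ 2
      change G₁ (t 2) * (algebraMap ℂ E 1 * t 0) = algebraMap ℂ E 1 * t 2 at this
      rwa [hE, hE, h1, mul_one] at this
    have k3 : G₁ (t 3) = -t 3 := by
      have := hG₁ 3
      change G₁ (t 3) * (algebraMap ℂ E 1 * t 0) = algebraMap ℂ E (-1) * t 3 at this
      rwa [hE, h1, mul_one, hE'] at this
    rw [map_neg] at k4
    intro j
    change G₁ (t j) * (algebraMap ℂ E Complex.I * t 0) = _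
    rw [h1, mul_one]
    fin_cases j
    · change G₁ (t 0) * algebraMap ℂ E Complex.I = algebraMap ℂ E Complex.I * t 0
      rw [h1, map_one, one_mul, mul_one]
    · change G₁ (t 1) * algebraMap ℂ E Complex.I = algebraMap ℂ E (-Complex.I) * t 1
      rw [k1, map_neg]
      ring
    · change G₁ (t 2) * algebraMap ℂ E Complex.I = algebraMap ℂ E Complex.I * t 2
      rw [k2]
      ring
    · change G₁ (t 3) * algebraMap ℂ E Complex.I = algebraMap ℂ E (-Complex.I) * t 3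
      rw [k3, map_neg]
      ring
    · change G₁ (t 4) * algebraMap ℂ E Complex.I = algebraMap ℂ E 1 * t 4
      rw [k4, hE]
      linear_combination -t 4 * hi2
    · change G₁ (t 5) * algebraMap ℂ E Complex.I = algebraMap ℂ E (-1) * t 5
      rw [k5, hE']
      linear_combination t 5 * hi2
    · change G₁ (t 6) * algebraMap ℂ E Complex.I = algebraMap ℂ E (-1) * t 6
      rw [k6, hE']
      linear_combination t 6 * hi2
  · rw [LQ_ev] at hG₂
    have key : ∀ (s : ℂ) (c' : ℂ) (x : E), s ≠ 0 → G₂ (algebraMap ℂ E s * x) *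
        (algebraMap ℂ E 1 * t 1) = algebraMap ℂ E c' * (algebraMap ℂ E s * x) →
        G₂ x * (algebraMap ℂ E 1 * t 1) = algebraMap ℂ E c' * x := by
      intro s c' x hs h
      rw [map_mul, AlgEquiv.commutes] at h
      have hs' : algebraMap ℂ E s ≠ 0 := by
        rwa [Ne, map_eq_zero_iff _ (algebraMap ℂ E).injective]
      exact mul_left_cancel₀ hs' (by rw [← mul_assoc, h]; ring)
    intro j
    fin_cases j
    · exact hG₂ 0
    · exact hG₂ 1
    · exact hG₂ 2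
    · exact hG₂ 3
    · exact key a (-1) (t 4) ha (hG₂ 4)
    · exact key b 1 (t 5) hb (hG₂ 5)
    · exact key c (-1) (t 6) hc (hG₂ 6)

end

end Vale.Agent.P297.C8V
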