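import Vale.Agent.P297.H10.V3.Norm42

/-!
The rank of the quadric containing the surface, for the group `ℤ/4 × ℤ/2`.
-/

open MvPolynomial

namespace Vale.Agent.P297.C8V

variable {w : Fin 4 → Fin 5 → ℂ} {F : Fin 4 → MvPolynomial (Fin 7) ℂ}

/-- the first four coordinates -/
def io (i : Fin 4) : Fin 7 := Fin.castLE (by norm_num) i

theorem vec_io (o : Fin 4 → ℂ) (a b c : ℂ) (i : Fin 4) :
    (![o 0, o 1, o 2, o 3, a, b, c] : Fin 7 → ℂ) (io i) = o i := by
  fin_cases i <;> rfl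

theorem Form42.f2' (h : Form42 w F) (hw : Nrm w) {c : Fin 4 → ℂ}
    (hc : ∀ i : Fin 4, c i = w 2 (Fin.castSucc i)) :
    F 2 = ∑ i : Fin 4, C (c i) * (X (io i) * X (io i)) := by
  rw [h.f2, hw.w24, Fin.sum_univ_four, C_0, zero_mul, add_zero, hc 0, hc 1, hc 2, hc 3]
  rfl

theorem Form42.lift' (h : Form42 w F) (hw : Nrm w) {c : Fin 4 → ℂ}
    (hc : ∀ i : Fin 4, c i = w 2 (Fin.castSucc i)) (o : Fin 4 → ℂ)
    (ho : ∑ i, c i * o i ^ 2 = 0) :
    ∃ z : Fin 7 → ℂ, (∀ i, eval z (F i) = 0) ∧ ∀ i, z (io i) = o i := by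
  obtain ⟨a, b, d, h1⟩ := h.lift hw o (by
    rw [Fin.sum_univ_four, hc 0, hc 1, hc 2, hc 3] at ho
    exact ho)
  exact ⟨_, h1, vec_io o a b d⟩

/-- The quadric is not a pair of planes. -/
theorem Form42.not_two (h : Form42 w F) (hw : Nrm w) {E : Type} [Field E] [Algebra ℂ E]
    {t : Fin 7 → E} (ht : IsFF F t) {c : Fin 4 → ℂ}
    (hc : ∀ i : Fin 4, c i = w 2 (Fin.castSucc i)) {i j : Fin 4} (hij : i ≠ j)
    (hi : c i ≠ 0) (hj : c j ≠ 0) (h0 : ∀ k, k ≠ i → k ≠ j → c k = 0) : False := by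
  classical
  obtain ⟨κ, hκ⟩ := IsAlgClosed.exists_pow_nat_eq (-c j / c i) (n := 2) (by norm_num)
  have hκ' : c i * κ ^ 2 + c j = 0 := by
    rw [hκ]
    field_simp
    ring
  have hκ0 : κ ≠ 0 := by
    rintro rfl
    apply hj
    linear_combination hκ'
  have hsum : ∀ {R : Type} [CommRing R] [Algebra ℂ R] (x : Fin 4 → R),
      ∑ k, algebraMap ℂ R (c k) * x k ^ 2 =
        algebraMap ℂ R (c i) * x i ^ 2 + algebraMap ℂ R (c j) * x j ^ 2 := by
    intro R _ _ x
    rw [← Finset.sum_subset (Finset.subset_univ {i, j}), Finset.sum_pair hij]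
    intro k _ hk
    simp only [Finset.mem_insert, Finset.mem_singleton, not_or] at hk
    rw [h0 k hk.1 hk.2, map_zero, zero_mul]
  have key : ∀ ε : ℂ, ε ^ 2 = κ ^ 2 → aeval t (X (io i) - C ε * X (io j) :
      MvPolynomial (Fin 7) ℂ) = 0 → False := by
    intro ε hε h1
    have hh : (X (io i) - C ε * X (io j) : MvPolynomial (Fin 7) ℂ).IsHomogeneous 1 := by
      refine (isHomogeneous_X _ _).sub ?_
      have := (isHomogeneous_C (Fin 7) ε).mul (isHomogeneous_X ℂ (io j))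
      rwa [zero_add] at this
    obtain ⟨z, hz, hz'⟩ := h.lift' hw hc (fun k => if k = i then -ε else if k = j then 1 else 0) (by
      have := hsum (R := ℂ) (fun k => if k = i then -ε else if k = j then 1 else 0)
      simp only [Algebra.algebraMap_self, RingHom.id_apply, if_true, if_neg hij.symm] at this
      rw [this]
      linear_combination hκ' + c i * hε)
    have h2 := ht.gen 1 _ hh h1 z hz
    rw [map_sub, map_mul, eval_X, eval_C, eval_X, hz', hz', if_pos rfl, if_neg hij.symm,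
      if_pos rfl] at h2
    have h3 : ε = 0 := by linear_combination -h2 / 2
    apply hκ0
    have : κ ^ 2 = 0 := by rw [← hε, h3]; ring
    exact pow_eq_zero_iff (two_ne_zero) |>.1 this
  have h1 := ht.zero 2
  rw [h.f2' hw hc, map_sum] at h1
  simp only [map_mul, aeval_X, aeval_C] at h1
  have h2 := hsum (R := E) (fun k => t (io k))
  simp only [pow_two] at h2
  rw [h2] at h1
  have hκE : algebraMap ℂ E (c i) * algebraMap ℂ E κ ^ 2 + algebraMap ℂ E (c j) = 0 := by
    rw [← map_pow, ← map_mul, ← map_add, hκ', map_zero]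
  have hiE : algebraMap ℂ E (c i) ≠ 0 := by
    rwa [Ne, map_eq_zero_iff _ (algebraMap ℂ E).injective]
  have h3 : (t (io i) - algebraMap ℂ E κ * t (io j)) *
      (t (io i) - algebraMap ℂ E (-κ) * t (io j)) = 0 := by
    refine mul_left_cancel₀ hiE ?_
    rw [map_neg]
    linear_combination h1 - t (io j) ^ 2 * hκE
  rcases mul_eq_zero.1 h3 with h4 | h4
  · refine key κ rfl ?_
    rw [map_sub, map_mul, aeval_X, aeval_C, aeval_X]
    exact h4
  · refine key (-κ) (by ring) ?_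
    rw [map_sub, map_mul, aeval_X, aeval_C, aeval_X]
    exact h4

/-- The quadric is not a double plane. -/
theorem Form42.not_one (h : Form42 w F) (hw : Nrm w) (hs : Iso F) {c : Fin 4 → ℂ}
    (hc : ∀ i : Fin 4, c i = w 2 (Fin.castSucc i)) {i : Fin 4}
    (h0 : ∀ k, k ≠ i → c k = 0) : False := by
  classical
  obtain ⟨Z, hZ⟩ := hs
  obtain ⟨p, q, hp, hq, hpq⟩ : ∃ p q : Fin 4, p ≠ i ∧ q ≠ i ∧ p ≠ q :=
    (by decide : ∀ i : Fin 4, ∃ p q : Fin 4, p ≠ i ∧ q ≠ i ∧ p ≠ q) i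
  have hF2 : F 2 = C (c i) * (X (io i) * X (io i)) := by
    rw [h.f2' hw hc]
    refine Finset.sum_eq_single i (fun k _ hk => ?_) (by simp)
    rw [h0 k hk, C_0, zero_mul]
  have key : ∀ s : ℂ, ∃ v : Z, ∃ a : ℂ, a * (v : (Fin 7 → ℂ) × (Fin 4 → ℂ)).1 (io p) = 1 ∧
      a * (v : (Fin 7 → ℂ) × (Fin 4 → ℂ)).1 (io q) = s := by
    intro s
    obtain ⟨z, hz, hz'⟩ := h.lift' hw hc (fun k => if k = p then 1 else if k = q then s else 0) (by
      refine Finset.sum_eq_zero fun k _ => ?_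
      by_cases hk : k = i
      · subst hk
        rw [if_neg hp.symm, if_neg hq.symm]
        ring
      · rw [h0 k hk]
        ring)
    have hzi : z (io i) = 0 := by
      rw [hz', if_neg hp.symm, if_neg hq.symm]
    obtain ⟨v, hv, a, b, h1, -⟩ := hZ z (Pi.single 2 1) hz (by
      intro h2
      have h3 := hz' p
      rw [h2, if_pos rfl] at h3
      exact zero_ne_one h3) (by
      intro h2
      have := congrFun h2 2
      simp at this) (by
      intro j
      rw [Finset.sum_eq_single (2 : Fin 4)]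
      · rw [hF2, pderiv_C_mul]
        simp only [Derivation.leibniz, smul_eq_mul, map_mul, map_add, eval_X, hzi]
        ring
      · intro k _ hk
        rw [Pi.single_eq_of_ne hk, zero_mul]
      · simp)
    refine ⟨⟨v, hv⟩, a, ?_, ?_⟩
    · have h2 := congrFun h1 (io p)
      rw [hz', if_pos rfl] at h2
      exact h2.symm
    · have h2 := congrFun h1 (io q)
      rw [hz', if_neg hpq.symm, if_pos rfl] at h2
      exact h2.symm
  choose f a h1 h2 using key
  refine not_injective_infinite_finite f fun s s' hss => ?_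
  have e1 := h1 s
  have e2 := h2 s
  have e3 := h1 s'
  have e4 := h2 s'
  rw [← hss] at e3 e4
  have hne : (f s : (Fin 7 → ℂ) × (Fin 4 → ℂ)).1 (io p) ≠ 0 := by
    intro h0
    rw [h0, mul_zero] at e1
    exact zero_ne_one e1
  have haa : a s = a s' := mul_right_cancel₀ hne (e1.trans e3.symm)
  rw [← e2, ← e4, haa]

/-- At most one coefficient of the quadric vanishes. -/
theorem Form42.rank (h : Form42 w F) (hw : Nrm w) (hs : Iso F) {E : Type} [Field E]
    [Algebra ℂ E] {t : Fin 7 → E} (ht : IsFF F t) :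
    (w 2 0 ≠ 0 ∧ w 2 2 ≠ 0 ∧ w 2 3 ≠ 0) ∨ (w 2 1 ≠ 0 ∧ w 2 3 ≠ 0 ∧ w 2 2 ≠ 0) ∨
    (w 2 2 ≠ 0 ∧ w 2 0 ≠ 0 ∧ w 2 1 ≠ 0) ∨ (w 2 3 ≠ 0 ∧ w 2 1 ≠ 0 ∧ w 2 0 ≠ 0) := by
  have hc : ∀ i : Fin 4, (fun i : Fin 4 => w 2 (Fin.castSucc i)) i = w 2 (Fin.castSucc i) :=
    fun _ => rfl
  have k2 := fun (i j : Fin 4) => h.not_two hw ht hc (i := i) (j := j)
  have k1 := fun (i : Fin 4) => h.not_one hw hs hc (i := i)
  have q0 : w 2 1 = 0 → w 2 2 = 0 → w 2 3 = 0 → False := fun a b c => k1 0 fun k hk => by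
    fin_cases k <;> first | exact absurd rfl hk | exact a | exact b | exact c
  have q1 : w 2 0 = 0 → w 2 2 = 0 → w 2 3 = 0 → False := fun a b c => k1 1 fun k hk => by
    fin_cases k <;> first | exact absurd rfl hk | exact a | exact b | exact c
  have q2 : w 2 0 = 0 → w 2 1 = 0 → w 2 3 = 0 → False := fun a b c => k1 2 fun k hk => by
    fin_cases k <;> first | exact absurd rfl hk | exact a | exact b | exact c
  have q3 : w 2 0 = 0 → w 2 1 = 0 → w 2 2 = 0 → False := fun a b c => k1 3 fun k hk => by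
    fin_cases k <;> first | exact absurd rfl hk | exact a | exact b | exact c
  have q01 : w 2 0 ≠ 0 → w 2 1 ≠ 0 → w 2 2 = 0 → w 2 3 = 0 → False :=
    fun a b c d => k2 0 1 (by decide) a b fun k hk1 hk2 => by
      fin_cases k <;> first | exact absurd rfl hk1 | exact absurd rfl hk2 | exact c | exact d
  have q02 : w 2 0 ≠ 0 → w 2 2 ≠ 0 → w 2 1 = 0 → w 2 3 = 0 → False :=
    fun a b c d => k2 0 2 (by decide) a b fun k hk1 hk2 => by
      fin_cases k <;> first | exact absurd rfl hk1 | exact absurd rfl hk2 | exact c | exact d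
  have q03 : w 2 0 ≠ 0 → w 2 3 ≠ 0 → w 2 1 = 0 → w 2 2 = 0 → False :=
    fun a b c d => k2 0 3 (by decide) a b fun k hk1 hk2 => by
      fin_cases k <;> first | exact absurd rfl hk1 | exact absurd rfl hk2 | exact c | exact d
  have q12 : w 2 1 ≠ 0 → w 2 2 ≠ 0 → w 2 0 = 0 → w 2 3 = 0 → False :=
    fun a b c d => k2 1 2 (by decide) a b fun k hk1 hk2 => by
      fin_cases k <;> first | exact absurd rfl hk1 | exact absurd rfl hk2 | exact c | exact d
  have q13 : w 2 1 ≠ 0 → w 2 3 ≠ 0 → w 2 0 = 0 → w 2 2 = 0 → False :=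
    fun a b c d => k2 1 3 (by decide) a b fun k hk1 hk2 => by
      fin_cases k <;> first | exact absurd rfl hk1 | exact absurd rfl hk2 | exact c | exact d
  have q23 : w 2 2 ≠ 0 → w 2 3 ≠ 0 → w 2 0 = 0 → w 2 1 = 0 → False :=
    fun a b c d => k2 2 3 (by decide) a b fun k hk1 hk2 => by
      fin_cases k <;> first | exact absurd rfl hk1 | exact absurd rfl hk2 | exact c | exact d
  by_cases h0 : w 2 0 = 0 <;> by_cases h1 : w 2 1 = 0 <;> by_cases h2 : w 2 2 = 0 <;>
    by_cases h3 : w 2 3 = 0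
  all_goals first
    | exact Or.inl ⟨h0, h2, h3⟩
    | exact Or.inr (Or.inl ⟨h1, h3, h2⟩)
    | exact Or.inr (Or.inr (Or.inl ⟨h2, h0, h1⟩))
    | exact Or.inr (Or.inr (Or.inr ⟨h3, h1, h0⟩))
    | exact (q01 h0 h1 h2 h3).elim
    | exact (q02 h0 h2 h1 h3).elim
    | exact (q03 h0 h3 h1 h2).elim
    | exact (q12 h1 h2 h0 h3).elim
    | exact (q13 h1 h3 h0 h2).elim
    | exact (q23 h2 h3 h0 h1).elim
    | exact (q0 h1 h2 h3).elim
    | exact (q1 h0 h2 h3).elim
    | exact (q2 h0 h1 h3).elim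
    | exact (q3 h0 h1 h2).elim

end Vale.Agent.P297.C8V
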