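import Vale.Agent.P297.H10.V3.Link42
import Vale.Agent.P297.H10.V3.Rank42

/-!
The group `ℤ/4 × ℤ/2` for semi-invariant quadrics: reduction to the normal form.
-/

open MvPolynomial

namespace Vale.Agent.P297.C8V

open Vale.Agent.P297.C8U (P42)

section

variable {F F' : Fin 4 → MvPolynomial (Fin 7) ℂ} {L L' : Fin 7 → MvPolynomial (Fin 7) ℂ}
  {R R' : Matrix (Fin 4) (Fin 4) ℂ}

theorem Link.free (h : Link F F' L L' R R') {c c' : Fin 7 → ℂ}
    (hc : ∀ (z : Fin 7 → ℂ) (j : Fin 7), eval (fun i => c i * z i) (L j) = c' j * eval z (L j))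
    (hf : Free c F) : Free c' F' := by
  intro y a hy hya
  by_contra hne
  push Not at hne
  have hz : (fun i => eval y (L' i)) ≠ 0 := by
    intro h0
    apply hy
    funext j
    rw [← h.pt y j, h0]
    have := eval_smul' (h.hL j) 0 0
    rw [zero_smul] at this
    rw [this]
    simp
  obtain ⟨i, hi⟩ := hf (fun i => eval y (L' i)) a hz (by
    intro i
    have h1 := h.pt' (A := ℂ) (fun i => c i * eval y (L' i)) i
    simp only [aeval_eq_eval, hc, h.pt y, hya] at h1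
    rw [← h1]
    have := eval_smul' (h.hL' i) a y
    rw [pow_one] at this
    exact this)
  exact hi (h.zero' hne i)

theorem BlochSub.mono {E : Type} [Field E] [Algebra ℂ E] {H H' : Subgroup (E ≃ₐ[ℂ] E)}
    (h : H ≤ H') (hB : BlochSub H) : BlochSub H' := by
  intro K _ _ ι
  refine hB K ((IntermediateField.inclusion ?_).comp ι)
  intro x hx g
  exact hx ⟨g.1, h g.2⟩

/-- diagonal automorphisms -/
def Dg {E : Type} [Field E] [Algebra ℂ E] (t : Fin 7 → E) (d : Fin 7 → ℂ) (G : E ≃ₐ[ℂ] E) :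
    Prop := ∀ k, G (t k) = algebraMap ℂ E (d k) * t k

section

variable {E : Type} [Field E] [Algebra ℂ E] {t : Fin 7 → E} {d e : Fin 7 → ℂ}
  {G H : E ≃ₐ[ℂ] E}

theorem Dg.mul (h : Dg t d G) (h' : Dg t e H) : Dg t (fun k => d k * e k) (G * H) := by
  intro k
  change G (H (t k)) = _
  rw [h' k, map_mul, AlgEquiv.commutes, h k, map_mul]
  ring

theorem Dg.inv (h : Dg t d G) (hd : ∀ k, d k ≠ 0) : Dg t (fun k => (d k)⁻¹) G⁻¹ := by
  intro k
  have h1 : G (algebraMap ℂ E (d k)⁻¹ * t k) = t k := by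
    rw [map_mul, AlgEquiv.commutes, h k, ← mul_assoc, ← map_mul, inv_mul_cancel₀ (hd k), map_one,
      one_mul]
  have h2 := congrArg G.symm h1
  rw [AlgEquiv.symm_apply_apply] at h2
  exact h2.symm

theorem Dg.congr (h : Dg t d G) (hd : ∀ k, d k = e k) : Dg t e G := fun k => by
  rw [h k, hd k]

theorem Dg.acts (h : Dg t d G) {c : Fin 7 → ℂ} (h1 : t 0 = 1) (hc : ∀ k, c 0 * d k = c k) :
    Acts t c id G := by
  intro k
  change G (t k) * (algebraMap ℂ E (c 0) * t 0) = algebraMap ℂ E (c k) * t k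
  rw [h k, h1, mul_one, ← hc k, map_mul]
  ring

end

/-- The statement for the normal form. -/
def Main42 : Prop :=
  ∀ (E : Type) [Field E] [Algebra ℂ E] (p : Fin 9 → ℂ) (t : Fin 7 → E), Iso (P42 p) →
    Free ![-1, -1, -1, -1, 1, 1, 1] (P42 p) → Free ![1, -1, -1, 1, -1, -1, 1] (P42 p) →
    Free ![-1, 1, 1, -1, -1, -1, 1] (P42 p) → IsFF (P42 p) t →
    ∃ G₁ G₂ : E ≃ₐ[ℂ] E,
      Acts t ![1, 1, 1, -1, Complex.I, Complex.I, Complex.I] ![0, 2, 1, 3, 5, 4, 6] G₁ ∧
      Acts t ![1, -1, -1, 1, -1, -1, 1] id G₂ ∧ BlochSub (Subgroup.closure {G₁, G₂})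

variable {w : Fin 4 → Fin 5 → ℂ} {E : Type} [Field E] [Algebra ℂ E] {t : Fin 7 → E}

theorem norm42 (main : Main42) (h : Form42 w F) (hw : Nrm w) (h20 : w 2 0 ≠ 0)
    (h22 : w 2 2 ≠ 0) (h23 : w 2 3 ≠ 0) (hf₁ : Free ![-1, -1, -1, -1, 1, 1, 1] F)
    (hf₂ : Free ![1, 1, -1, -1, -1, -1, 1] F) (hf₃ : Free ![-1, -1, 1, 1, -1, -1, 1] F)
    (hs : Iso F) (ht : IsFF F t) :
    ∃ G₁ G₂ : E ≃ₐ[ℂ] E, Dg t ![1, -1, 1, -1, -Complex.I, Complex.I, Complex.I] G₁ ∧
      Dg t ![1, 1, -1, -1, -1, -1, 1] G₂ ∧ BlochSub (Subgroup.closure {G₁, G₂}) := by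
  obtain ⟨p, a, b, c, d, R, R', ha, hb, hc, hd, hL⟩ := h.link hw h20 h22 h23
  have hev : ∀ z : Fin 7 → ℂ, (fun j => eval z (LU a b c d j)) = ![z 0, a * z 2 + b * z 3,
      a * z 2 - b * z 3, z 1, c * z 5 + d * z 4, c * z 5 - d * z 4, z 6] := by
    intro z
    have h1 := LU_ev a b c d z
    simp only [aeval_eq_eval, Algebra.algebraMap_self, RingHom.id_apply] at h1
    exact h1
  obtain ⟨G₁, G₂, hG₁, hG₂, hB⟩ := main E p _ (hL.iso hs)
    (hL.free (by
      intro z j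
      rw [show eval (fun i => (![-1, -1, -1, -1, 1, 1, 1] : Fin 7 → ℂ) i * z i) (LU a b c d j) =
        _ from congrFun (hev _) j, show eval z (LU a b c d j) = _ from congrFun (hev z) j]
      fin_cases j <;> simp <;> ring) hf₁)
    (hL.free (by
      intro z j
      rw [show eval (fun i => (![1, 1, -1, -1, -1, -1, 1] : Fin 7 → ℂ) i * z i) (LU a b c d j) =
        _ from congrFun (hev _) j, show eval z (LU a b c d j) = _ from congrFun (hev z) j]
      fin_cases j <;> simp <;> ring) hf₂)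
    (hL.free (by
      intro z j
      rw [show eval (fun i => (![-1, -1, 1, 1, -1, -1, 1] : Fin 7 → ℂ) i * z i) (LU a b c d j) =
        _ from congrFun (hev _) j, show eval z (LU a b c d j) = _ from congrFun (hev z) j]
      fin_cases j <;> simp <;> ring) hf₃)
    (hL.isFF rfl ht)
  have h1 := ht.one
  have hE : ∀ z : E, algebraMap ℂ E 1 * z = z := fun z => by rw [map_one, one_mul]
  have hE' : ∀ z : E, algebraMap ℂ E (-1) * z = -z := fun z => by
    rw [map_neg, map_one, neg_one_mul]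
  have : CharZero E := charZero_of_injective_algebraMap (algebraMap ℂ E).injective
  have hne : ∀ {x : ℂ}, x ≠ 0 → algebraMap ℂ E x ≠ 0 := fun {x} hx => by
    rwa [Ne, map_eq_zero_iff _ (algebraMap ℂ E).injective]
  refine ⟨G₁, G₂, ?_, ?_, hB⟩
  · rw [LU_ev] at hG₁
    have g1 := hG₁ 1
    have g2 := hG₁ 2
    have g3 := hG₁ 3
    have g4 := hG₁ 4
    have g5 := hG₁ 5
    have g6 := hG₁ 6
    change G₁ (algebraMap ℂ E a * t 2 + algebraMap ℂ E b * t 3) * (algebraMap ℂ E 1 * t 0) =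
      algebraMap ℂ E 1 * (algebraMap ℂ E a * t 2 - algebraMap ℂ E b * t 3) at g1
    change G₁ (algebraMap ℂ E a * t 2 - algebraMap ℂ E b * t 3) * (algebraMap ℂ E 1 * t 0) =
      algebraMap ℂ E 1 * (algebraMap ℂ E a * t 2 + algebraMap ℂ E b * t 3) at g2
    change G₁ (t 1) * (algebraMap ℂ E 1 * t 0) = algebraMap ℂ E (-1) * t 1 at g3
    change G₁ (algebraMap ℂ E c * t 5 + algebraMap ℂ E d * t 4) * (algebraMap ℂ E 1 * t 0) =
      algebraMap ℂ E Complex.I * (algebraMap ℂ E c * t 5 - algebraMap ℂ E d * t 4) at g4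
    change G₁ (algebraMap ℂ E c * t 5 - algebraMap ℂ E d * t 4) * (algebraMap ℂ E 1 * t 0) =
      algebraMap ℂ E Complex.I * (algebraMap ℂ E c * t 5 + algebraMap ℂ E d * t 4) at g5
    change G₁ (t 6) * (algebraMap ℂ E 1 * t 0) = algebraMap ℂ E Complex.I * t 6 at g6
    rw [h1, hE, mul_one] at g1 g2 g3 g4 g5 g6
    rw [hE] at g1 g2
    rw [hE'] at g3
    simp only [map_add, map_sub, map_mul, AlgEquiv.commutes] at g1 g2 g4 g5
    have k2 : G₁ (t 2) = t 2 := mul_left_cancel₀ (hne ha) (by linear_combination (g1 + g2) / 2)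
    have k3 : G₁ (t 3) = -t 3 := mul_left_cancel₀ (hne hb) (by linear_combination (g1 - g2) / 2)
    have k5 : G₁ (t 5) = algebraMap ℂ E Complex.I * t 5 :=
      mul_left_cancel₀ (hne hc) (by linear_combination (g4 + g5) / 2)
    have k4 : G₁ (t 4) = -(algebraMap ℂ E Complex.I * t 4) :=
      mul_left_cancel₀ (hne hd) (by linear_combination (g4 - g5) / 2)
    intro k
    fin_cases k
    · change G₁ (t 0) = algebraMap ℂ E 1 * t 0
      rw [h1, map_one, hE]
    · change G₁ (t 1) = algebraMap ℂ E (-1) * t 1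
      rw [hE', g3]
    · change G₁ (t 2) = algebraMap ℂ E 1 * t 2
      rw [hE, k2]
    · change G₁ (t 3) = algebraMap ℂ E (-1) * t 3
      rw [hE', k3]
    · change G₁ (t 4) = algebraMap ℂ E (-Complex.I) * t 4
      rw [k4, map_neg, neg_mul]
    · exact k5
    · exact g6
  · rw [LU_ev] at hG₂
    have g1 := hG₂ 1
    have g2 := hG₂ 2
    have g3 := hG₂ 3
    have g4 := hG₂ 4
    have g5 := hG₂ 5
    have g6 := hG₂ 6
    change G₂ (algebraMap ℂ E a * t 2 + algebraMap ℂ E b * t 3) * (algebraMap ℂ E 1 * t 0) =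
      algebraMap ℂ E (-1) * (algebraMap ℂ E a * t 2 + algebraMap ℂ E b * t 3) at g1
    change G₂ (algebraMap ℂ E a * t 2 - algebraMap ℂ E b * t 3) * (algebraMap ℂ E 1 * t 0) =
      algebraMap ℂ E (-1) * (algebraMap ℂ E a * t 2 - algebraMap ℂ E b * t 3) at g2
    change G₂ (t 1) * (algebraMap ℂ E 1 * t 0) = algebraMap ℂ E 1 * t 1 at g3
    change G₂ (algebraMap ℂ E c * t 5 + algebraMap ℂ E d * t 4) * (algebraMap ℂ E 1 * t 0) =
      algebraMap ℂ E (-1) * (algebraMap ℂ E c * t 5 + algebraMap ℂ E d * t 4) at g4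
    change G₂ (algebraMap ℂ E c * t 5 - algebraMap ℂ E d * t 4) * (algebraMap ℂ E 1 * t 0) =
      algebraMap ℂ E (-1) * (algebraMap ℂ E c * t 5 - algebraMap ℂ E d * t 4) at g5
    change G₂ (t 6) * (algebraMap ℂ E 1 * t 0) = algebraMap ℂ E 1 * t 6 at g6
    rw [h1, hE, mul_one] at g1 g2 g3 g4 g5 g6
    rw [hE'] at g1 g2 g4 g5
    rw [hE] at g3 g6
    simp only [map_add, map_sub, map_mul, AlgEquiv.commutes] at g1 g2 g4 g5
    have k2 : G₂ (t 2) = -t 2 := mul_left_cancel₀ (hne ha) (by linear_combination (g1 + g2) / 2)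
    have k3 : G₂ (t 3) = -t 3 := mul_left_cancel₀ (hne hb) (by linear_combination (g1 - g2) / 2)
    have k5 : G₂ (t 5) = -t 5 := mul_left_cancel₀ (hne hc) (by linear_combination (g4 + g5) / 2)
    have k4 : G₂ (t 4) = -t 4 := mul_left_cancel₀ (hne hd) (by linear_combination (g4 - g5) / 2)
    intro k
    fin_cases k
    · change G₂ (t 0) = algebraMap ℂ E 1 * t 0
      rw [h1, map_one, hE]
    · change G₂ (t 1) = algebraMap ℂ E 1 * t 1
      rw [hE, g3]
    · change G₂ (t 2) = algebraMap ℂ E (-1) * t 2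
      rw [hE', k2]
    · change G₂ (t 3) = algebraMap ℂ E (-1) * t 3
      rw [hE', k3]
    · change G₂ (t 4) = algebraMap ℂ E (-1) * t 4
      rw [hE', k4]
    · change G₂ (t 5) = algebraMap ℂ E (-1) * t 5
      rw [hE', k5]
    · change G₂ (t 6) = algebraMap ℂ E 1 * t 6
      rw [hE, g6]

/-- relabelling -/
noncomputable def pm (σ : Fin 7 → Fin 7) (F : Fin 4 → MvPolynomial (Fin 7) ℂ) :
    Fin 4 → MvPolynomial (Fin 7) ℂ := fun k => aeval (fun j => X (σ j)) (F k)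

theorem link_pm {σ : Fin 7 → Fin 7} (hσ : ∀ i, σ (σ i) = i)
    (F : Fin 4 → MvPolynomial (Fin 7) ℂ) :
    Link F (pm σ F) (fun j => X (σ j)) (fun j => X (σ j)) 1 1 where
  hL _ := isHomogeneous_X _ _
  hL' _ := isHomogeneous_X _ _
  inv j := by rw [aeval_X, hσ]
  inv' j := by rw [aeval_X, hσ]
  eq k := by
    rw [pm, aeval_comp]
    simp only [aeval_X, hσ]
    rw [aeval_X_self]
    simp [Matrix.one_apply]
  rr := mul_one 1

theorem free_pm {σ : Fin 7 → Fin 7} (hσ : ∀ i, σ (σ i) = i) {c c' : Fin 7 → ℂ}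
    (hc : ∀ j, c' j = c (σ j)) (hf : Free c F) : Free c' (pm σ F) :=
  (link_pm hσ F).free (fun z j => by rw [eval_X, eval_X, hc]) hf

theorem Dg.pm {σ : Fin 7 → Fin 7} (hσ : ∀ i, σ (σ i) = i) (h1 : t 0 = 1) (hs : t (σ 0) ≠ 0)
    {d e : Fin 7 → ℂ} {G : E ≃ₐ[ℂ] E} (hd : ∀ k, d k ≠ 0)
    (h : Dg (fun j => (t (σ 0))⁻¹ * t (σ j)) d G) (he : ∀ k, e k * d (σ 0) = d (σ k)) :
    Dg t e G := by
  intro k
  have h2 : G ((t (σ 0))⁻¹ * t (σ (σ 0))) = algebraMap ℂ E (d (σ 0)) *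
      ((t (σ 0))⁻¹ * t (σ (σ 0))) := h (σ 0)
  have h3 : G ((t (σ 0))⁻¹ * t (σ (σ k))) = algebraMap ℂ E (d (σ k)) *
      ((t (σ 0))⁻¹ * t (σ (σ k))) := h (σ k)
  rw [hσ, h1, mul_one] at h2
  rw [hσ, map_mul, h2, ← he k, map_mul] at h3
  have h4 : algebraMap ℂ E (d (σ 0)) * (t (σ 0))⁻¹ ≠ 0 :=
    mul_ne_zero (by rw [Ne, map_eq_zero_iff _ (algebraMap ℂ E).injective]; exact hd _)
      (inv_ne_zero hs)
  exact mul_left_cancel₀ h4 (by rw [h3]; ring)

theorem Form42.t_ne (h : Form42 w F) (hw : Nrm w) (ht : IsFF F t) {c : Fin 4 → ℂ}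
    (hc : ∀ i : Fin 4, c i = w 2 (Fin.castSucc i)) {i j : Fin 4} (hij : i ≠ j)
    (hj : c j ≠ 0) : t (io i) ≠ 0 := by
  classical
  intro h0
  obtain ⟨s, hs⟩ := IsAlgClosed.exists_pow_nat_eq (-c i / c j) (n := 2) (by norm_num)
  obtain ⟨z, hz, hz'⟩ := h.lift' hw hc (fun k => if k = i then 1 else if k = j then s else 0) (by
    rw [← Finset.sum_subset (Finset.subset_univ {i, j}), Finset.sum_pair hij]
    · simp only [if_true, if_neg hij.symm]
      rw [hs]
      field_simp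
      ring
    · intro k _ hk
      simp only [Finset.mem_insert, Finset.mem_singleton, not_or] at hk
      rw [if_neg hk.1, if_neg hk.2]
      ring)
  have h1 := ht.gen 1 (X (io i)) (isHomogeneous_X _ _) (by rw [aeval_X, h0]) z hz
  rw [eval_X, hz', if_pos rfl] at h1
  exact one_ne_zero h1

/-- The relabelled case. -/
theorem perm42 (main : Main42) {σ : Fin 7 → Fin 7} (hσ : ∀ i, σ (σ i) = i)
    (hq : ∀ k, (F k).IsHomogeneous 2)
    (h : Form42 w (pm σ F)) (hw : Nrm w) (h20 : w 2 0 ≠ 0)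
    (h22 : w 2 2 ≠ 0) (h23 : w 2 3 ≠ 0) (hf₁ : Free ![-1, -1, -1, -1, 1, 1, 1] (pm σ F))
    (hf₂ : Free ![1, 1, -1, -1, -1, -1, 1] (pm σ F))
    (hf₃ : Free ![-1, -1, 1, 1, -1, -1, 1] (pm σ F))
    (hs : Iso F) (ht : IsFF F t) (h0 : t (σ 0) ≠ 0) {e₁ e₂ : Fin 7 → ℂ}
    (he₁ : ∀ k, e₁ k * (![1, -1, 1, -1, -Complex.I, Complex.I, Complex.I] : Fin 7 → ℂ) (σ 0) =
      (![1, -1, 1, -1, -Complex.I, Complex.I, Complex.I] : Fin 7 → ℂ) (σ k))
    (he₂ : ∀ k, e₂ k * (![1, 1, -1, -1, -1, -1, 1] : Fin 7 → ℂ) (σ 0) =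
      (![1, 1, -1, -1, -1, -1, 1] : Fin 7 → ℂ) (σ k)) :
    ∃ G₁ G₂ : E ≃ₐ[ℂ] E, Dg t e₁ G₁ ∧ Dg t e₂ G₂ ∧
      BlochSub (Subgroup.closure {G₁, G₂}) := by
  have hL := link_pm hσ F
  have h0' : aeval t ((fun j => X (σ j) : Fin 7 → MvPolynomial (Fin 7) ℂ) 0) ≠ 0 := by
    change aeval t (X (σ 0)) ≠ 0
    rwa [aeval_X]
  have ht' := hL.isFF_div hq ht h0'
  simp only [aeval_X] at ht'
  obtain ⟨G₁, G₂, hG₁, hG₂, hB⟩ := norm42 main h hw h20 h22 h23 hf₁ hf₂ hf₃ (hL.iso hs) ht'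
  refine ⟨G₁, G₂, hG₁.pm hσ ht.one h0 ?_ he₁, hG₂.pm hσ ht.one h0 ?_ he₂, hB⟩
  · intro k
    fin_cases k
    · exact one_ne_zero
    · exact neg_ne_zero.2 one_ne_zero
    · exact one_ne_zero
    · exact neg_ne_zero.2 one_ne_zero
    · exact neg_ne_zero.2 Complex.I_ne_zero
    · exact Complex.I_ne_zero
    · exact Complex.I_ne_zero
  · intro k
    fin_cases k
    · exact one_ne_zero
    · exact one_ne_zero
    · exact neg_ne_zero.2 one_ne_zero
    · exact neg_ne_zero.2 one_ne_zero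
    · exact neg_ne_zero.2 one_ne_zero
    · exact neg_ne_zero.2 one_ne_zero
    · exact one_ne_zero

/-- the three relabellings -/
def s1 : Fin 7 → Fin 7 := ![1, 0, 3, 2, 4, 5, 6]

/-- the three relabellings -/
def s2 : Fin 7 → Fin 7 := ![2, 3, 0, 1, 4, 5, 6]

/-- the three relabellings -/
def s3 : Fin 7 → Fin 7 := ![3, 2, 1, 0, 4, 5, 6]

theorem form_s1 (h : Form42 w F) : Form42 ![w 0, w 1, ![w 2 1, w 2 0, w 2 3, w 2 2, w 2 4],
    ![w 3 1, w 3 0, w 3 3, w 3 2, w 3 4]] (pm s1 F) := by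
  refine ⟨?_, ?_, ?_, ?_⟩
  · rw [pm, h.f0]
    simp only [map_add, map_mul, aeval_X, aeval_C, algebraMap_eq]
    change C (w 0 0) * (X 1 * X 0) + C (w 0 1) * (X 3 * X 2) + C (w 0 2) * (X 4 * X 4) +
      C (w 0 3) * (X 5 * X 5) + C (w 0 4) * (X 6 * X 6) = C (w 0 0) * (X 0 * X 1) +
      C (w 0 1) * (X 2 * X 3) + C (w 0 2) * (X 4 * X 4) +
      C (w 0 3) * (X 5 * X 5) + C (w 0 4) * (X 6 * X 6)
    ring
  · rw [pm, h.f1]
    simp only [map_add, map_mul, aeval_X, aeval_C, algebraMap_eq]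
    change C (w 1 0) * (X 1 * X 0) + C (w 1 1) * (X 3 * X 2) + C (w 1 2) * (X 4 * X 4) +
      C (w 1 3) * (X 5 * X 5) + C (w 1 4) * (X 6 * X 6) = C (w 1 0) * (X 0 * X 1) +
      C (w 1 1) * (X 2 * X 3) + C (w 1 2) * (X 4 * X 4) +
      C (w 1 3) * (X 5 * X 5) + C (w 1 4) * (X 6 * X 6)
    ring
  · rw [pm, h.f2]
    simp only [map_add, map_mul, aeval_X, aeval_C, algebraMap_eq]
    change C (w 2 0) * (X 1 * X 1) + C (w 2 1) * (X 0 * X 0) + C (w 2 2) * (X 3 * X 3) +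
      C (w 2 3) * (X 2 * X 2) + C (w 2 4) * (X 4 * X 5) = C (w 2 1) * (X 0 * X 0) +
      C (w 2 0) * (X 1 * X 1) + C (w 2 3) * (X 2 * X 2) +
      C (w 2 2) * (X 3 * X 3) + C (w 2 4) * (X 4 * X 5)
    ring
  · rw [pm, h.f3]
    simp only [map_add, map_mul, aeval_X, aeval_C, algebraMap_eq]
    change C (w 3 0) * (X 1 * X 1) + C (w 3 1) * (X 0 * X 0) + C (w 3 2) * (X 3 * X 3) +
      C (w 3 3) * (X 2 * X 2) + C (w 3 4) * (X 4 * X 5) = C (w 3 1) * (X 0 * X 0) +
      C (w 3 0) * (X 1 * X 1) + C (w 3 3) * (X 2 * X 2) +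
      C (w 3 2) * (X 3 * X 3) + C (w 3 4) * (X 4 * X 5)
    ring

theorem form_s2 (h : Form42 w F) : Form42 ![![w 0 1, w 0 0, w 0 2, w 0 3, w 0 4],
    ![w 1 1, w 1 0, w 1 2, w 1 3, w 1 4], ![w 2 2, w 2 3, w 2 0, w 2 1, w 2 4],
    ![w 3 2, w 3 3, w 3 0, w 3 1, w 3 4]] (pm s2 F) := by
  refine ⟨?_, ?_, ?_, ?_⟩
  · rw [pm, h.f0]
    simp only [map_add, map_mul, aeval_X, aeval_C, algebraMap_eq]
    change C (w 0 0) * (X 2 * X 3) + C (w 0 1) * (X 0 * X 1) + C (w 0 2) * (X 4 * X 4) +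
      C (w 0 3) * (X 5 * X 5) + C (w 0 4) * (X 6 * X 6) = C (w 0 1) * (X 0 * X 1) +
      C (w 0 0) * (X 2 * X 3) + C (w 0 2) * (X 4 * X 4) +
      C (w 0 3) * (X 5 * X 5) + C (w 0 4) * (X 6 * X 6)
    ring
  · rw [pm, h.f1]
    simp only [map_add, map_mul, aeval_X, aeval_C, algebraMap_eq]
    change C (w 1 0) * (X 2 * X 3) + C (w 1 1) * (X 0 * X 1) + C (w 1 2) * (X 4 * X 4) +
      C (w 1 3) * (X 5 * X 5) + C (w 1 4) * (X 6 * X 6) = C (w 1 1) * (X 0 * X 1) +
      C (w 1 0) * (X 2 * X 3) + C (w 1 2) * (X 4 * X 4) +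
      C (w 1 3) * (X 5 * X 5) + C (w 1 4) * (X 6 * X 6)
    ring
  · rw [pm, h.f2]
    simp only [map_add, map_mul, aeval_X, aeval_C, algebraMap_eq]
    change C (w 2 0) * (X 2 * X 2) + C (w 2 1) * (X 3 * X 3) + C (w 2 2) * (X 0 * X 0) +
      C (w 2 3) * (X 1 * X 1) + C (w 2 4) * (X 4 * X 5) = C (w 2 2) * (X 0 * X 0) +
      C (w 2 3) * (X 1 * X 1) + C (w 2 0) * (X 2 * X 2) +
      C (w 2 1) * (X 3 * X 3) + C (w 2 4) * (X 4 * X 5)
    ring
  · rw [pm, h.f3]
    simp only [map_add, map_mul, aeval_X, aeval_C, algebraMap_eq]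
    change C (w 3 0) * (X 2 * X 2) + C (w 3 1) * (X 3 * X 3) + C (w 3 2) * (X 0 * X 0) +
      C (w 3 3) * (X 1 * X 1) + C (w 3 4) * (X 4 * X 5) = C (w 3 2) * (X 0 * X 0) +
      C (w 3 3) * (X 1 * X 1) + C (w 3 0) * (X 2 * X 2) +
      C (w 3 1) * (X 3 * X 3) + C (w 3 4) * (X 4 * X 5)
    ring

theorem form_s3 (h : Form42 w F) : Form42 ![![w 0 1, w 0 0, w 0 2, w 0 3, w 0 4],
    ![w 1 1, w 1 0, w 1 2, w 1 3, w 1 4], ![w 2 3, w 2 2, w 2 1, w 2 0, w 2 4],
    ![w 3 3, w 3 2, w 3 1, w 3 0, w 3 4]] (pm s3 F) := by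
  refine ⟨?_, ?_, ?_, ?_⟩
  · rw [pm, h.f0]
    simp only [map_add, map_mul, aeval_X, aeval_C, algebraMap_eq]
    change C (w 0 0) * (X 3 * X 2) + C (w 0 1) * (X 1 * X 0) + C (w 0 2) * (X 4 * X 4) +
      C (w 0 3) * (X 5 * X 5) + C (w 0 4) * (X 6 * X 6) = C (w 0 1) * (X 0 * X 1) +
      C (w 0 0) * (X 2 * X 3) + C (w 0 2) * (X 4 * X 4) +
      C (w 0 3) * (X 5 * X 5) + C (w 0 4) * (X 6 * X 6)
    ring
  · rw [pm, h.f1]
    simp only [map_add, map_mul, aeval_X, aeval_C, algebraMap_eq]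
    change C (w 1 0) * (X 3 * X 2) + C (w 1 1) * (X 1 * X 0) + C (w 1 2) * (X 4 * X 4) +
      C (w 1 3) * (X 5 * X 5) + C (w 1 4) * (X 6 * X 6) = C (w 1 1) * (X 0 * X 1) +
      C (w 1 0) * (X 2 * X 3) + C (w 1 2) * (X 4 * X 4) +
      C (w 1 3) * (X 5 * X 5) + C (w 1 4) * (X 6 * X 6)
    ring
  · rw [pm, h.f2]
    simp only [map_add, map_mul, aeval_X, aeval_C, algebraMap_eq]
    change C (w 2 0) * (X 3 * X 3) + C (w 2 1) * (X 2 * X 2) + C (w 2 2) * (X 1 * X 1) +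
      C (w 2 3) * (X 0 * X 0) + C (w 2 4) * (X 4 * X 5) = C (w 2 3) * (X 0 * X 0) +
      C (w 2 2) * (X 1 * X 1) + C (w 2 1) * (X 2 * X 2) +
      C (w 2 0) * (X 3 * X 3) + C (w 2 4) * (X 4 * X 5)
    ring
  · rw [pm, h.f3]
    simp only [map_add, map_mul, aeval_X, aeval_C, algebraMap_eq]
    change C (w 3 0) * (X 3 * X 3) + C (w 3 1) * (X 2 * X 2) + C (w 3 2) * (X 1 * X 1) +
      C (w 3 3) * (X 0 * X 0) + C (w 3 4) * (X 4 * X 5) = C (w 3 3) * (X 0 * X 0) +
      C (w 3 2) * (X 1 * X 1) + C (w 3 1) * (X 2 * X 2) +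
      C (w 3 0) * (X 3 * X 3) + C (w 3 4) * (X 4 * X 5)
    ring

/-- The group `ℤ/4 × ℤ/2`. -/
theorem bloch_Z42 (main : Main42)
    (h1 : Semi ![Complex.I, -Complex.I, Complex.I, -Complex.I, 1, -1, -1] id ![1, 1, -1, -1] F)
    (h2 : Semi ![1, 1, -1, -1, -1, -1, 1] id ![1, 1, 1, 1] F)
    (hf₁ : Free ![-1, -1, -1, -1, 1, 1, 1] F) (hf₂ : Free ![1, 1, -1, -1, -1, -1, 1] F)
    (hf₃ : Free ![-1, -1, 1, 1, -1, -1, 1] F) (hs : Iso F) (ht : IsFF F t) :
    ∃ G₁ G₂ : E ≃ₐ[ℂ] E,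
      Acts t ![Complex.I, -Complex.I, Complex.I, -Complex.I, 1, -1, -1] id G₁ ∧
      Acts t ![1, 1, -1, -1, -1, -1, 1] id G₂ ∧ BlochSub (Subgroup.closure {G₁, G₂}) := by
  obtain ⟨u, hu⟩ := exists_form42 h1 h2
  obtain ⟨w, F₁, R, R', hL, hw, hn⟩ := hu.exists_nrm hf₁
  have hq : ∀ k, (F₁ k).IsHomogeneous 2 := by
    intro k
    have e := hL.eq k
    rw [aeval_X_self] at e
    rw [e]
    refine IsHomogeneous.sum _ _ _ fun l _ => ?_
    have := (isHomogeneous_C (Fin 7) (R k l)).mul (h1 l).1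
    rwa [zero_add] at this
  have hfr : ∀ c : Fin 7 → ℂ, Free c F → Free c F₁ := fun c hc =>
    hL.free (fun z j => by rw [eval_X, eval_X]) hc
  replace hf₁ := hfr _ hf₁
  replace hf₂ := hfr _ hf₂
  replace hf₃ := hfr _ hf₃
  replace hs := hL.iso hs
  have ht' := hL.isFF rfl ht
  simp only [aeval_X] at ht'
  replace ht := ht'
  have hone := ht.one
  have hI2 := Complex.I_sq
  -- the final step
  have fin : ∀ G₁ G₂ : E ≃ₐ[ℂ] E,
      Dg t ![1, -1, 1, -1, -Complex.I, Complex.I, Complex.I] G₁ →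
      Dg t ![1, 1, -1, -1, -1, -1, 1] G₂ → BlochSub (Subgroup.closure {G₁, G₂}) →
      ∃ G₁ G₂ : E ≃ₐ[ℂ] E,
      Acts t ![Complex.I, -Complex.I, Complex.I, -Complex.I, 1, -1, -1] id G₁ ∧
      Acts t ![1, 1, -1, -1, -1, -1, 1] id G₂ ∧ BlochSub (Subgroup.closure {G₁, G₂}) := by
    intro G₁ G₂ hG₁ hG₂ hB
    refine ⟨G₁, G₂, hG₁.acts hone ?_, hG₂.acts hone ?_, hB⟩
    · intro k
      fin_cases k
      · change Complex.I * 1 = Complex.I
        ring
      · change Complex.I * -1 = -Complex.I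
        ring
      · change Complex.I * 1 = Complex.I
        ring
      · change Complex.I * -1 = -Complex.I
        ring
      · change Complex.I * -Complex.I = 1
        linear_combination -hI2
      · change Complex.I * Complex.I = -1
        linear_combination hI2
      · change Complex.I * Complex.I = -1
        linear_combination hI2
    · intro k
      exact one_mul _
  have hc : ∀ i : Fin 4, (fun i : Fin 4 => w 2 (Fin.castSucc i)) i = w 2 (Fin.castSucc i) :=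
    fun _ => rfl
  rcases hw.rank hn hs ht with h | h | h | h
  · obtain ⟨G₁, G₂, hG₁, hG₂, hB⟩ := norm42 main hw hn h.1 h.2.1 h.2.2 hf₁ hf₂ hf₃ hs ht
    exact fin G₁ G₂ hG₁ hG₂ hB
  · have hσ : ∀ i, s1 (s1 i) = i := by decide
    have h0 : t (s1 0) ≠ 0 := hw.t_ne hn ht hc (i := 1) (j := 2) (by decide) h.2.2
    obtain ⟨G₁, G₂, hG₁, hG₂, hB⟩ := perm42 main hσ hq (form_s1 hw)
      ⟨hn.w04, hn.w14, hn.w24, hn.w34, hn.w02, hn.w03⟩ h.1 h.2.1 h.2.2
      (free_pm hσ (by intro j; fin_cases j <;> rfl) hf₁)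
      (free_pm hσ (by intro j; fin_cases j <;> rfl) hf₂)
      (free_pm hσ (by intro j; fin_cases j <;> rfl) hf₃)
      hs ht h0 (e₁ := ![1, -1, 1, -1, Complex.I, -Complex.I, -Complex.I]) (e₂ := ![1, 1, -1, -1, -1, -1, 1])
      (by
        intro k
        fin_cases k
        · change (1 : ℂ) * -1 = -1
          ring
        · change (-1 : ℂ) * -1 = 1
          ring
        · change (1 : ℂ) * -1 = -1
          ring
        · change (-1 : ℂ) * -1 = 1
          ring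
        · change (Complex.I : ℂ) * -1 = -Complex.I
          ring
        · change (-Complex.I : ℂ) * -1 = Complex.I
          ring
        · change (-Complex.I : ℂ) * -1 = Complex.I
          ring)
      (by
        intro k
        fin_cases k
        · change (1 : ℂ) * 1 = 1
          ring
        · change (1 : ℂ) * 1 = 1
          ring
        · change (-1 : ℂ) * 1 = -1
          ring
        · change (-1 : ℂ) * 1 = -1
          ring
        · change (-1 : ℂ) * 1 = -1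
          ring
        · change (-1 : ℂ) * 1 = -1
          ring
        · change (1 : ℂ) * 1 = 1
          ring)
    have k₁ : Dg t ![1, -1, 1, -1, -Complex.I, Complex.I, Complex.I] G₁⁻¹ := by
      refine (hG₁.inv ?_).congr ?_
      · intro k
        fin_cases k
        · exact one_ne_zero
        · exact neg_ne_zero.2 one_ne_zero
        · exact one_ne_zero
        · exact neg_ne_zero.2 one_ne_zero
        · exact Complex.I_ne_zero
        · exact neg_ne_zero.2 Complex.I_ne_zero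
        · exact neg_ne_zero.2 Complex.I_ne_zero
      · intro k
        fin_cases k
        · change (1 : ℂ)⁻¹ = 1
          norm_num
        · change (-1 : ℂ)⁻¹ = -1
          norm_num
        · change (1 : ℂ)⁻¹ = 1
          norm_num
        · change (-1 : ℂ)⁻¹ = -1
          norm_num
        · change (Complex.I : ℂ)⁻¹ = -Complex.I
          exact Complex.inv_I
        · change (-Complex.I : ℂ)⁻¹ = Complex.I
          rw [inv_neg, Complex.inv_I, neg_neg]
        · change (-Complex.I : ℂ)⁻¹ = Complex.I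
          rw [inv_neg, Complex.inv_I, neg_neg]
    have k₂ : Dg t ![1, 1, -1, -1, -1, -1, 1] G₂ := hG₂
    refine fin (G₁⁻¹) (G₂) k₁ k₂ (BlochSub.mono ?_ hB)
    rw [Subgroup.closure_le]
    have m₁ : G₁⁻¹ ∈ Subgroup.closure {G₁⁻¹, G₂} := Subgroup.subset_closure (Or.inl rfl)
    have m₂ : G₂ ∈ Subgroup.closure {G₁⁻¹, G₂} := Subgroup.subset_closure (Or.inr rfl)
    have m₃ : G₁ ∈ Subgroup.closure {G₁⁻¹, G₂} := by
      have := inv_mem m₁
      rwa [inv_inv] at this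
    have m₄ : G₂ ∈ Subgroup.closure {G₁⁻¹, G₂} := m₂
    rintro x (rfl | rfl)
    · exact m₃
    · exact m₄
  · have hσ : ∀ i, s2 (s2 i) = i := by decide
    have h0 : t (s2 0) ≠ 0 := hw.t_ne hn ht hc (i := 2) (j := 0) (by decide) h.2.1
    obtain ⟨G₁, G₂, hG₁, hG₂, hB⟩ := perm42 main hσ hq (form_s2 hw)
      ⟨hn.w04, hn.w14, hn.w24, hn.w34, hn.w02, hn.w03⟩ h.1 h.2.1 h.2.2
      (free_pm hσ (by intro j; fin_cases j <;> rfl) hf₁)
      (free_pm hσ (by intro j; fin_cases j <;> rfl) hf₃)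
      (free_pm hσ (by intro j; fin_cases j <;> rfl) hf₂)
      hs ht h0 (e₁ := ![1, -1, 1, -1, -Complex.I, Complex.I, Complex.I]) (e₂ := ![1, 1, -1, -1, 1, 1, -1])
      (by
        intro k
        fin_cases k
        · change (1 : ℂ) * 1 = 1
          ring
        · change (-1 : ℂ) * 1 = -1
          ring
        · change (1 : ℂ) * 1 = 1
          ring
        · change (-1 : ℂ) * 1 = -1
          ring
        · change (-Complex.I : ℂ) * 1 = -Complex.I
          ring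
        · change (Complex.I : ℂ) * 1 = Complex.I
          ring
        · change (Complex.I : ℂ) * 1 = Complex.I
          ring)
      (by
        intro k
        fin_cases k
        · change (1 : ℂ) * -1 = -1
          ring
        · change (1 : ℂ) * -1 = -1
          ring
        · change (-1 : ℂ) * -1 = 1
          ring
        · change (-1 : ℂ) * -1 = 1
          ring
        · change (1 : ℂ) * -1 = -1
          ring
        · change (1 : ℂ) * -1 = -1
          ring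
        · change (-1 : ℂ) * -1 = 1
          ring)
    have k₁ : Dg t ![1, -1, 1, -1, -Complex.I, Complex.I, Complex.I] G₁ := hG₁
    have k₂ : Dg t ![1, 1, -1, -1, -1, -1, 1] (G₁ * G₁ * G₂) := by
      refine ((hG₁.mul hG₁).mul hG₂).congr fun k => ?_
      fin_cases k
      · change (1 : ℂ) * 1 * 1 = 1
        ring
      · change (-1 : ℂ) * -1 * 1 = 1
        ring
      · change (1 : ℂ) * 1 * -1 = -1
        ring
      · change (-1 : ℂ) * -1 * -1 = -1
        ring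
      · change (-Complex.I : ℂ) * -Complex.I * 1 = -1
        linear_combination (1 : ℂ) * hI2
      · change (Complex.I : ℂ) * Complex.I * 1 = -1
        linear_combination (1 : ℂ) * hI2
      · change (Complex.I : ℂ) * Complex.I * -1 = 1
        linear_combination (-1 : ℂ) * hI2
    refine fin (G₁) (G₁ * G₁ * G₂) k₁ k₂ (BlochSub.mono ?_ hB)
    rw [Subgroup.closure_le]
    have m₁ : G₁ ∈ Subgroup.closure {G₁, G₁ * G₁ * G₂} := Subgroup.subset_closure (Or.inl rfl)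
    have m₂ : G₁ * G₁ * G₂ ∈ Subgroup.closure {G₁, G₁ * G₁ * G₂} := Subgroup.subset_closure (Or.inr rfl)
    have m₃ : G₁ ∈ Subgroup.closure {G₁, G₁ * G₁ * G₂} := m₁
    have m₄ : G₂ ∈ Subgroup.closure {G₁, G₁ * G₁ * G₂} := by
      have := mul_mem (inv_mem (mul_mem m₃ m₃)) m₂
      rwa [inv_mul_cancel_left] at this
    rintro x (rfl | rfl)
    · exact m₃
    · exact m₄
  · have hσ : ∀ i, s3 (s3 i) = i := by decide
    have h0 : t (s3 0) ≠ 0 := hw.t_ne hn ht hc (i := 3) (j := 1) (by decide) h.2.1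
    obtain ⟨G₁, G₂, hG₁, hG₂, hB⟩ := perm42 main hσ hq (form_s3 hw)
      ⟨hn.w04, hn.w14, hn.w24, hn.w34, hn.w02, hn.w03⟩ h.1 h.2.1 h.2.2
      (free_pm hσ (by intro j; fin_cases j <;> rfl) hf₁)
      (free_pm hσ (by intro j; fin_cases j <;> rfl) hf₃)
      (free_pm hσ (by intro j; fin_cases j <;> rfl) hf₂)
      hs ht h0 (e₁ := ![1, -1, 1, -1, Complex.I, -Complex.I, -Complex.I]) (e₂ := ![1, 1, -1, -1, 1, 1, -1])
      (by
        intro k
        fin_cases k
        · change (1 : ℂ) * -1 = -1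
          ring
        · change (-1 : ℂ) * -1 = 1
          ring
        · change (1 : ℂ) * -1 = -1
          ring
        · change (-1 : ℂ) * -1 = 1
          ring
        · change (Complex.I : ℂ) * -1 = -Complex.I
          ring
        · change (-Complex.I : ℂ) * -1 = Complex.I
          ring
        · change (-Complex.I : ℂ) * -1 = Complex.I
          ring)
      (by
        intro k
        fin_cases k
        · change (1 : ℂ) * -1 = -1
          ring
        · change (1 : ℂ) * -1 = -1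
          ring
        · change (-1 : ℂ) * -1 = 1
          ring
        · change (-1 : ℂ) * -1 = 1
          ring
        · change (1 : ℂ) * -1 = -1
          ring
        · change (1 : ℂ) * -1 = -1
          ring
        · change (-1 : ℂ) * -1 = 1
          ring)
    have k₁ : Dg t ![1, -1, 1, -1, -Complex.I, Complex.I, Complex.I] G₁⁻¹ := by
      refine (hG₁.inv ?_).congr ?_
      · intro k
        fin_cases k
        · exact one_ne_zero
        · exact neg_ne_zero.2 one_ne_zero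
        · exact one_ne_zero
        · exact neg_ne_zero.2 one_ne_zero
        · exact Complex.I_ne_zero
        · exact neg_ne_zero.2 Complex.I_ne_zero
        · exact neg_ne_zero.2 Complex.I_ne_zero
      · intro k
        fin_cases k
        · change (1 : ℂ)⁻¹ = 1
          norm_num
        · change (-1 : ℂ)⁻¹ = -1
          norm_num
        · change (1 : ℂ)⁻¹ = 1
          norm_num
        · change (-1 : ℂ)⁻¹ = -1
          norm_num
        · change (Complex.I : ℂ)⁻¹ = -Complex.I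
          exact Complex.inv_I
        · change (-Complex.I : ℂ)⁻¹ = Complex.I
          rw [inv_neg, Complex.inv_I, neg_neg]
        · change (-Complex.I : ℂ)⁻¹ = Complex.I
          rw [inv_neg, Complex.inv_I, neg_neg]
    have k₂ : Dg t ![1, 1, -1, -1, -1, -1, 1] (G₁ * G₁ * G₂) := by
      refine ((hG₁.mul hG₁).mul hG₂).congr fun k => ?_
      fin_cases k
      · change (1 : ℂ) * 1 * 1 = 1
        ring
      · change (-1 : ℂ) * -1 * 1 = 1
        ring
      · change (1 : ℂ) * 1 * -1 = -1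
        ring
      · change (-1 : ℂ) * -1 * -1 = -1
        ring
      · change (Complex.I : ℂ) * Complex.I * 1 = -1
        linear_combination (1 : ℂ) * hI2
      · change (-Complex.I : ℂ) * -Complex.I * 1 = -1
        linear_combination (1 : ℂ) * hI2
      · change (-Complex.I : ℂ) * -Complex.I * -1 = 1
        linear_combination (-1 : ℂ) * hI2
    refine fin (G₁⁻¹) (G₁ * G₁ * G₂) k₁ k₂ (BlochSub.mono ?_ hB)
    rw [Subgroup.closure_le]
    have m₁ : G₁⁻¹ ∈ Subgroup.closure {G₁⁻¹, G₁ * G₁ * G₂} := Subgroup.subset_closure (Or.inl rfl)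
    have m₂ : G₁ * G₁ * G₂ ∈ Subgroup.closure {G₁⁻¹, G₁ * G₁ * G₂} := Subgroup.subset_closure (Or.inr rfl)
    have m₃ : G₁ ∈ Subgroup.closure {G₁⁻¹, G₁ * G₁ * G₂} := by
      have := inv_mem m₁
      rwa [inv_inv] at this
    have m₄ : G₂ ∈ Subgroup.closure {G₁⁻¹, G₁ * G₁ * G₂} := by
      have := mul_mem (inv_mem (mul_mem m₃ m₃)) m₂
      rwa [inv_mul_cancel_left] at this
    rintro x (rfl | rfl)
    · exact m₃
    · exact m₄

end

end Vale.Agent.P297.C8V
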