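import Vale.Agent.P297.H10.V3.Tr
import Vale.Agent.P297.H10.V3.Form42

/-!
The four quadrics for the group `ℤ/4 × ℤ/2`: change of basis, and points of the surface.
-/

open MvPolynomial

namespace Vale.Agent.P297.C8V

variable {u : Fin 4 → Fin 5 → ℂ} {F : Fin 4 → MvPolynomial (Fin 7) ℂ}

theorem Form42.ev (h : Form42 u F) (z : Fin 7 → ℂ) :
    eval z (F 0) = u 0 0 * (z 0 * z 1) + u 0 1 * (z 2 * z 3) + u 0 2 * z 4 ^ 2 +
      u 0 3 * z 5 ^ 2 + u 0 4 * z 6 ^ 2 ∧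
    eval z (F 1) = u 1 0 * (z 0 * z 1) + u 1 1 * (z 2 * z 3) + u 1 2 * z 4 ^ 2 +
      u 1 3 * z 5 ^ 2 + u 1 4 * z 6 ^ 2 ∧
    eval z (F 2) = u 2 0 * z 0 ^ 2 + u 2 1 * z 1 ^ 2 + u 2 2 * z 2 ^ 2 + u 2 3 * z 3 ^ 2 +
      u 2 4 * (z 4 * z 5) ∧
    eval z (F 3) = u 3 0 * z 0 ^ 2 + u 3 1 * z 1 ^ 2 + u 3 2 * z 2 ^ 2 + u 3 3 * z 3 ^ 2 +
      u 3 4 * (z 4 * z 5) := by
  refine ⟨?_, ?_, ?_, ?_⟩
  · rw [h.f0]
    simp only [map_add, map_mul, eval_C, eval_X]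
    ring
  · rw [h.f1]
    simp only [map_add, map_mul, eval_C, eval_X]
    ring
  · rw [h.f2]
    simp only [map_add, map_mul, eval_C, eval_X]
    ring
  · rw [h.f3]
    simp only [map_add, map_mul, eval_C, eval_X]
    ring

/-- The normalised basis. -/
structure Nrm (w : Fin 4 → Fin 5 → ℂ) : Prop where
  w04 : w 0 4 = 0
  w14 : w 1 4 = 1
  w24 : w 2 4 = 0
  w34 : w 3 4 = 1
  w02 : w 0 2 ≠ 0
  w03 : w 0 3 ≠ 0

theorem Form42.key (h : Form42 u F) (hf : Free ![-1, -1, -1, -1, 1, 1, 1] F) (a b c : ℂ)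
    (h0 : u 0 2 * a ^ 2 + u 0 3 * b ^ 2 + u 0 4 * c ^ 2 = 0)
    (h1 : u 1 2 * a ^ 2 + u 1 3 * b ^ 2 + u 1 4 * c ^ 2 = 0)
    (h2 : u 2 4 * (a * b) = 0) (h3 : u 3 4 * (a * b) = 0) : a = 0 ∧ b = 0 ∧ c = 0 := by
  by_contra hne
  obtain ⟨i, hi⟩ := hf ![0, 0, 0, 0, a, b, c] 1 (by
    intro h4
    apply hne
    exact ⟨congrFun h4 4, congrFun h4 5, congrFun h4 6⟩) (by
    intro j
    fin_cases j
    · change (-1 : ℂ) * 0 = 1 * 0
      ring
    · change (-1 : ℂ) * 0 = 1 * 0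
      ring
    · change (-1 : ℂ) * 0 = 1 * 0
      ring
    · change (-1 : ℂ) * 0 = 1 * 0
      ring
    · rfl
    · rfl
    · rfl)
  obtain ⟨e0, e1, e2, e3⟩ := h.ev ![0, 0, 0, 0, a, b, c]
  apply hi
  fin_cases i
  · refine e0.trans ?_
    change u 0 0 * ((0 : ℂ) * 0) + u 0 1 * ((0 : ℂ) * 0) + u 0 2 * a ^ 2 + u 0 3 * b ^ 2 +
      u 0 4 * c ^ 2 = 0
    linear_combination h0
  · refine e1.trans ?_
    change u 1 0 * ((0 : ℂ) * 0) + u 1 1 * ((0 : ℂ) * 0) + u 1 2 * a ^ 2 + u 1 3 * b ^ 2 +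
      u 1 4 * c ^ 2 = 0
    linear_combination h1
  · refine e2.trans ?_
    change u 2 0 * (0 : ℂ) ^ 2 + u 2 1 * (0 : ℂ) ^ 2 + u 2 2 * (0 : ℂ) ^ 2 +
      u 2 3 * (0 : ℂ) ^ 2 + u 2 4 * (a * b) = 0
    linear_combination h2
  · refine e3.trans ?_
    change u 3 0 * (0 : ℂ) ^ 2 + u 3 1 * (0 : ℂ) ^ 2 + u 3 2 * (0 : ℂ) ^ 2 +
      u 3 3 * (0 : ℂ) ^ 2 + u 3 4 * (a * b) = 0
    linear_combination h3

/-- A two by two system with vanishing determinant has a solution among squares. -/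
theorem exists_sq {a b c d : ℂ} (h : a * d - b * c = 0) :
    ∃ x y : ℂ, (x ≠ 0 ∨ y ≠ 0) ∧ a * x ^ 2 + b * y ^ 2 = 0 ∧ c * x ^ 2 + d * y ^ 2 = 0 := by
  by_cases hab : a = 0 ∧ b = 0
  · obtain ⟨rfl, rfl⟩ := hab
    obtain ⟨x, hx⟩ := IsAlgClosed.exists_pow_nat_eq d (n := 2) (by norm_num)
    obtain ⟨y, hy⟩ := IsAlgClosed.exists_pow_nat_eq (-c) (n := 2) (by norm_num)
    by_cases hcd : d = 0 ∧ c = 0
    · obtain ⟨rfl, rfl⟩ := hcd
      exact ⟨1, 0, Or.inl one_ne_zero, by ring, by ring⟩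
    · refine ⟨x, y, ?_, by ring, by rw [hx, hy]; ring⟩
      by_contra hne
      push Not at hne
      apply hcd
      constructor
      · rw [← hx, hne.1]
        ring
      · have : -c = 0 := by rw [← hy, hne.2]; ring
        linear_combination -this
  · obtain ⟨x, hx⟩ := IsAlgClosed.exists_pow_nat_eq b (n := 2) (by norm_num)
    obtain ⟨y, hy⟩ := IsAlgClosed.exists_pow_nat_eq (-a) (n := 2) (by norm_num)
    refine ⟨x, y, ?_, by rw [hx, hy]; ring, by rw [hx, hy]; linear_combination -h⟩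
    by_contra hne
    push Not at hne
    apply hab
    constructor
    · have : -a = 0 := by rw [← hy, hne.2]; ring
      linear_combination -this
    · rw [← hx, hne.1]
      ring

theorem aeval_X_self (P : MvPolynomial (Fin 7) ℂ) :
    aeval (X : Fin 7 → MvPolynomial (Fin 7) ℂ) P = P := aeval_X_left_apply P

/-- The normalised basis. -/
theorem Form42.exists_nrm (h : Form42 u F) (hf : Free ![-1, -1, -1, -1, 1, 1, 1] F) :
    ∃ (w : Fin 4 → Fin 5 → ℂ) (F' : Fin 4 → MvPolynomial (Fin 7) ℂ)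
      (R R' : Matrix (Fin 4) (Fin 4) ℂ), Link F F' X X R R' ∧ Form42 w F' ∧ Nrm w := by
  have k1 : u 2 4 ≠ 0 ∨ u 3 4 ≠ 0 := by
    by_contra hne
    push Not at hne
    by_cases hd : u 0 2 * u 1 3 - u 0 3 * u 1 2 = 0
    · obtain ⟨x, y, hxy, h1, h2⟩ := exists_sq hd
      have := h.key hf x y 0 (by linear_combination h1) (by linear_combination h2)
        (by rw [hne.1]; ring) (by rw [hne.2]; ring)
      rcases hxy with h3 | h3
      · exact h3 this.1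
      · exact h3 this.2.1
    · -- solve with `c = 1`
      obtain ⟨x, hx⟩ := IsAlgClosed.exists_pow_nat_eq
        ((u 0 3 * u 1 4 - u 0 4 * u 1 3) / (u 0 2 * u 1 3 - u 0 3 * u 1 2)) (n := 2)
        (by norm_num)
      obtain ⟨y, hy⟩ := IsAlgClosed.exists_pow_nat_eq
        ((u 0 4 * u 1 2 - u 0 2 * u 1 4) / (u 0 2 * u 1 3 - u 0 3 * u 1 2)) (n := 2)
        (by norm_num)
      have hx' : (u 0 2 * u 1 3 - u 0 3 * u 1 2) * x ^ 2 = u 0 3 * u 1 4 - u 0 4 * u 1 3 := by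
        rw [hx, mul_div_cancel₀ _ hd]
      have hy' : (u 0 2 * u 1 3 - u 0 3 * u 1 2) * y ^ 2 = u 0 4 * u 1 2 - u 0 2 * u 1 4 := by
        rw [hy, mul_div_cancel₀ _ hd]
      have := h.key hf x y 1
        (mul_left_cancel₀ hd (by linear_combination u 0 2 * hx' + u 0 3 * hy'))
        (mul_left_cancel₀ hd (by linear_combination u 1 2 * hx' + u 1 3 * hy'))
        (by rw [hne.1]; ring) (by rw [hne.2]; ring)
      exact one_ne_zero this.2.2
  have k2 : u 1 4 * u 0 2 - u 0 4 * u 1 2 ≠ 0 := by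
    intro h0
    obtain ⟨x, y, hxy, h1, h2⟩ := exists_sq (a := u 0 2) (b := u 0 4) (c := u 1 2) (d := u 1 4)
      (by linear_combination h0)
    have := h.key hf x 0 y (by linear_combination h1) (by linear_combination h2)
      (by ring) (by ring)
    rcases hxy with h3 | h3
    · exact h3 this.1
    · exact h3 this.2.2
  have k3 : u 1 4 * u 0 3 - u 0 4 * u 1 3 ≠ 0 := by
    intro h0
    obtain ⟨x, y, hxy, h1, h2⟩ := exists_sq (a := u 0 3) (b := u 0 4) (c := u 1 3) (d := u 1 4)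
      (by linear_combination h0)
    have := h.key hf 0 x y (by linear_combination h1) (by linear_combination h2)
      (by ring) (by ring)
    rcases hxy with h3 | h3
    · exact h3 this.2.1
    · exact h3 this.2.2
  obtain ⟨p, q, hpq⟩ : ∃ p q, p * u 0 4 + q * u 1 4 = 1 := by
    by_cases h0 : u 1 4 = 0
    · have h1 : u 0 4 ≠ 0 := by
        intro h1
        apply k2
        rw [h0, h1]
        ring
      exact ⟨(u 0 4)⁻¹, 0, by field_simp; ring⟩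
    · exact ⟨0, (u 1 4)⁻¹, by field_simp; ring⟩
  obtain ⟨p', q', hpq'⟩ : ∃ p q, p * u 2 4 + q * u 3 4 = 1 := by
    rcases k1 with h0 | h0
    · exact ⟨(u 2 4)⁻¹, 0, by field_simp; ring⟩
    · exact ⟨0, (u 3 4)⁻¹, by field_simp; ring⟩
  refine ⟨![fun i => u 1 4 * u 0 i - u 0 4 * u 1 i, fun i => p * u 0 i + q * u 1 i,
      fun i => u 3 4 * u 2 i - u 2 4 * u 3 i, fun i => p' * u 2 i + q' * u 3 i],
    ![C (u 1 4) * F 0 - C (u 0 4) * F 1, C p * F 0 + C q * F 1,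
      C (u 3 4) * F 2 - C (u 2 4) * F 3, C p' * F 2 + C q' * F 3],
    !![u 1 4, -u 0 4, 0, 0; p, q, 0, 0; 0, 0, u 3 4, -u 2 4; 0, 0, p', q'],
    !![q, u 0 4, 0, 0; -p, u 1 4, 0, 0; 0, 0, q', u 2 4; 0, 0, -p', u 3 4], ?_, ?_, ?_⟩
  · refine ⟨fun j => isHomogeneous_X _ _, fun j => isHomogeneous_X _ _, fun j => aeval_X _ _,
      fun j => aeval_X _ _, ?_, ?_⟩
    · intro k
      rw [aeval_X_self, Fin.sum_univ_four]
      fin_cases k
      · simp
        ring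
      · simp
      · simp
        ring
      · simp
    · ext k l
      rw [Matrix.mul_apply, Fin.sum_univ_four]
      fin_cases k <;> fin_cases l <;> simp
      · linear_combination hpq
      · ring
      · ring
      · linear_combination hpq
      · linear_combination hpq'
      · ring
      · ring
      · linear_combination hpq'
  · refine ⟨?_, ?_, ?_, ?_⟩
    · change C (u 1 4) * F 0 - C (u 0 4) * F 1 = C (u 1 4 * u 0 0 - u 0 4 * u 1 0) * (X 0 * X 1) +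
        C (u 1 4 * u 0 1 - u 0 4 * u 1 1) * (X 2 * X 3) +
        C (u 1 4 * u 0 2 - u 0 4 * u 1 2) * (X 4 * X 4) +
        C (u 1 4 * u 0 3 - u 0 4 * u 1 3) * (X 5 * X 5) +
        C (u 1 4 * u 0 4 - u 0 4 * u 1 4) * (X 6 * X 6)
      rw [h.f0, h.f1]
      simp only [map_sub, map_mul]
      ring
    · change C p * F 0 + C q * F 1 = C (p * u 0 0 + q * u 1 0) * (X 0 * X 1) +
        C (p * u 0 1 + q * u 1 1) * (X 2 * X 3) +
        C (p * u 0 2 + q * u 1 2) * (X 4 * X 4) +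
        C (p * u 0 3 + q * u 1 3) * (X 5 * X 5) +
        C (p * u 0 4 + q * u 1 4) * (X 6 * X 6)
      rw [h.f0, h.f1]
      simp only [map_add, map_mul]
      ring
    · change C (u 3 4) * F 2 - C (u 2 4) * F 3 = C (u 3 4 * u 2 0 - u 2 4 * u 3 0) * (X 0 * X 0) +
        C (u 3 4 * u 2 1 - u 2 4 * u 3 1) * (X 1 * X 1) +
        C (u 3 4 * u 2 2 - u 2 4 * u 3 2) * (X 2 * X 2) +
        C (u 3 4 * u 2 3 - u 2 4 * u 3 3) * (X 3 * X 3) +
        C (u 3 4 * u 2 4 - u 2 4 * u 3 4) * (X 4 * X 5)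
      rw [h.f2, h.f3]
      simp only [map_sub, map_mul]
      ring
    · change C p' * F 2 + C q' * F 3 = C (p' * u 2 0 + q' * u 3 0) * (X 0 * X 0) +
        C (p' * u 2 1 + q' * u 3 1) * (X 1 * X 1) +
        C (p' * u 2 2 + q' * u 3 2) * (X 2 * X 2) +
        C (p' * u 2 3 + q' * u 3 3) * (X 3 * X 3) +
        C (p' * u 2 4 + q' * u 3 4) * (X 4 * X 5)
      rw [h.f2, h.f3]
      simp only [map_add, map_mul]
      ring
  · refine ⟨?_, ?_, ?_, ?_, ?_, ?_⟩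
    · change u 1 4 * u 0 4 - u 0 4 * u 1 4 = 0
      ring
    · exact hpq
    · change u 3 4 * u 2 4 - u 2 4 * u 3 4 = 0
      ring
    · exact hpq'
    · exact k2
    · exact k3

/-- Two conics. -/
theorem exists_xy {A B : ℂ} (hA : A ≠ 0) (hB : B ≠ 0) (c d : ℂ) :
    ∃ x y : ℂ, A * x ^ 2 + B * y ^ 2 = c ∧ x * y = d := by
  by_cases hd : d = 0
  · obtain ⟨x, hx⟩ := IsAlgClosed.exists_pow_nat_eq (c / A) (n := 2) (by norm_num)
    exact ⟨x, 0, by rw [hx]; field_simp; ring, by rw [hd]; ring⟩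
  · -- `A x⁴ - c x² + B d² = 0`
    obtain ⟨s, hs⟩ := IsAlgClosed.exists_pow_nat_eq (c ^ 2 - 4 * A * (B * d ^ 2)) (n := 2)
      (by norm_num)
    obtain ⟨x, hx⟩ := IsAlgClosed.exists_pow_nat_eq ((c + s) / (2 * A)) (n := 2) (by norm_num)
    have h1 : A * x ^ 4 - c * x ^ 2 + B * d ^ 2 = 0 := by
      have h2 : 2 * A * x ^ 2 = c + s := by rw [hx]; field_simp
      have h3 : 4 * A * (A * x ^ 4 - c * x ^ 2 + B * d ^ 2) = 0 := by
        linear_combination (2 * A * x ^ 2 + s - c) * h2 + hs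
      exact (mul_eq_zero.1 h3).resolve_left (mul_ne_zero (by norm_num) hA)
    have hx0 : x ≠ 0 := by
      rintro rfl
      apply mul_ne_zero hB (pow_ne_zero 2 hd)
      linear_combination h1
    refine ⟨x, d / x, ?_, by field_simp⟩
    field_simp
    linear_combination h1

/-- Points of the surface over the points of the quadric surface. -/
theorem Form42.lift {w : Fin 4 → Fin 5 → ℂ} (h : Form42 w F) (hw : Nrm w) (o : Fin 4 → ℂ)
    (ho : w 2 0 * o 0 ^ 2 + w 2 1 * o 1 ^ 2 + w 2 2 * o 2 ^ 2 + w 2 3 * o 3 ^ 2 = 0) :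
    ∃ a b c : ℂ, ∀ i, eval ![o 0, o 1, o 2, o 3, a, b, c] (F i) = 0 := by
  obtain ⟨a, b, h1, h2⟩ := exists_xy hw.w02 hw.w03 (-(w 0 0 * (o 0 * o 1) + w 0 1 * (o 2 * o 3)))
    (-(w 3 0 * o 0 ^ 2 + w 3 1 * o 1 ^ 2 + w 3 2 * o 2 ^ 2 + w 3 3 * o 3 ^ 2))
  obtain ⟨c, hc⟩ := IsAlgClosed.exists_pow_nat_eq (-(w 1 0 * (o 0 * o 1) +
    w 1 1 * (o 2 * o 3) + w 1 2 * a ^ 2 + w 1 3 * b ^ 2)) (n := 2) (by norm_num)
  refine ⟨a, b, c, fun i => ?_⟩
  obtain ⟨e0, e1, e2, e3⟩ := h.ev ![o 0, o 1, o 2, o 3, a, b, c]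
  fin_cases i
  · refine e0.trans ?_
    change w 0 0 * (o 0 * o 1) + w 0 1 * (o 2 * o 3) + w 0 2 * a ^ 2 + w 0 3 * b ^ 2 +
      w 0 4 * c ^ 2 = 0
    rw [hw.w04]
    linear_combination h1
  · refine e1.trans ?_
    change w 1 0 * (o 0 * o 1) + w 1 1 * (o 2 * o 3) + w 1 2 * a ^ 2 + w 1 3 * b ^ 2 +
      w 1 4 * c ^ 2 = 0
    rw [hw.w14]
    linear_combination hc
  · refine e2.trans ?_
    change w 2 0 * o 0 ^ 2 + w 2 1 * o 1 ^ 2 + w 2 2 * o 2 ^ 2 + w 2 3 * o 3 ^ 2 +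
      w 2 4 * (a * b) = 0
    rw [hw.w24]
    linear_combination ho
  · refine e3.trans ?_
    change w 3 0 * o 0 ^ 2 + w 3 1 * o 1 ^ 2 + w 3 2 * o 2 ^ 2 + w 3 3 * o 3 ^ 2 +
      w 3 4 * (a * b) = 0
    rw [hw.w34]
    linear_combination h2

end Vale.Agent.P297.C8V
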