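import Mathlib.RingTheory.MvPolynomial.Homogeneous
import Mathlib.Algebra.MvPolynomial.Funext
import Mathlib.Analysis.Complex.Polynomial.Basic
import Mathlib.Tactic.LinearCombination

/-!
Quadratic forms which are multiplied by a constant under a monomial change of coordinates.
-/

open MvPolynomial

namespace Vale.Agent.P297.H10.V3

/-- The quadratic form of the matrix `b`. -/
noncomputable def qf {n : ℕ} (b : Fin n → Fin n → ℂ) : MvPolynomial (Fin n) ℂ :=
  ∑ i, ∑ j, C (b i j) * (X i * X j)

theorem qf_add {n : ℕ} (a b : Fin n → Fin n → ℂ) :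
    qf (fun i j => a i j + b i j) = qf a + qf b := by
  simp only [qf, ← Finset.sum_add_distrib, map_add, add_mul]

theorem qf_zero {n : ℕ} : qf (fun _ _ : Fin n => (0 : ℂ)) = 0 := by
  simp [qf]

/-- A form of degree two is given by a symmetric matrix. -/
theorem exists_qf {n : ℕ} {F : MvPolynomial (Fin n) ℂ} (hF : F.IsHomogeneous 2) :
    ∃ b : Fin n → Fin n → ℂ, (∀ i j, b i j = b j i) ∧ F = qf b := by
  classical
  rw [F.as_sum]
  refine Finset.sum_induction _
    (fun G => ∃ b : Fin n → Fin n → ℂ, (∀ i j, b i j = b j i) ∧ G = qf b) ?_ ?_ ?_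
  · rintro G H ⟨a, ha, rfl⟩ ⟨b, hb, rfl⟩
    exact ⟨fun i j => a i j + b i j, fun i j => by simp only [ha i j, hb i j], (qf_add a b).symm⟩
  · exact ⟨fun _ _ => 0, fun _ _ => rfl, qf_zero.symm⟩
  · intro m hm
    have hc : coeff m F ≠ 0 := by simpa [mem_support_iff] using hm
    have hd : m.degree = 2 := by
      rw [Finsupp.degree_eq_weight_one]
      exact hF hc
    -- `m = e_i + e_j`
    obtain ⟨i, j, rfl⟩ : ∃ i j, m = Finsupp.single i 1 + Finsupp.single j 1 := by
      have h1 : m ≠ 0 := by
        rintro rfl
        simp at hd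
      obtain ⟨i, hi⟩ := Finsupp.ne_iff.1 h1
      have hi' : Finsupp.single i 1 ≤ m := by
        rw [Finsupp.single_le_iff]
        simp only [Finsupp.coe_zero, Pi.zero_apply] at hi
        omega
      obtain ⟨m', rfl⟩ := exists_add_of_le hi'
      have h2 : m'.degree = 1 := by
        rw [map_add, Finsupp.degree_single] at hd
        omega
      have h3 : m' ≠ 0 := by
        rintro rfl
        simp at h2
      obtain ⟨j, hj⟩ := Finsupp.ne_iff.1 h3
      have hj' : Finsupp.single j 1 ≤ m' := by
        rw [Finsupp.single_le_iff]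
        simp only [Finsupp.coe_zero, Pi.zero_apply] at hj
        omega
      obtain ⟨m'', rfl⟩ := exists_add_of_le hj'
      have h4 : m''.degree = 0 := by
        rw [map_add, Finsupp.degree_single] at h2
        omega
      have h5 : m'' = 0 := (Finsupp.degree_eq_zero_iff _).1 h4
      exact ⟨i, j, by rw [h5, add_zero]⟩
    set c := coeff (Finsupp.single i 1 + Finsupp.single j 1) F
    refine ⟨fun k l => (if k = i ∧ l = j then c / 2 else 0) + (if k = j ∧ l = i then c / 2 else 0),
      fun k l => ?_, ?_⟩
    · simp only [and_comm]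
      ring
    · rw [qf_add]
      have key : ∀ i j : Fin n, qf (fun k l => if k = i ∧ l = j then c / 2 else 0) =
          C (c / 2) * (X i * X j) := by
        intro i j
        unfold qf
        rw [Finset.sum_eq_single i, Finset.sum_eq_single j]
        · simp
        · intro l _ hl
          simp [hl]
        · simp
        · intro k _ hk
          simp [hk]
        · simp
      rw [key, key]
      have : monomial (Finsupp.single i 1 + Finsupp.single j 1) c =
          C c * (X i * X j) := by
        rw [X, X, monomial_mul, C_mul_monomial]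
        simp
      rw [this, mul_comm (X j) (X i), ← add_mul, ← map_add]
      congr 2
      ring

theorem eval_qf {n : ℕ} (b : Fin n → Fin n → ℂ) (z : Fin n → ℂ) :
    eval z (qf b) = ∑ i, ∑ j, b i j * (z i * z j) := by
  simp [qf]

/-- A symmetric matrix is determined by its quadratic form. -/
theorem sum_ext {n : ℕ} {a b : Fin n → Fin n → ℂ} (ha : ∀ i j, a i j = a j i)
    (hb : ∀ i j, b i j = b j i)
    (h : ∀ z : Fin n → ℂ, ∑ i, ∑ j, a i j * (z i * z j) = ∑ i, ∑ j, b i j * (z i * z j)) :
    ∀ i j, a i j = b i j := by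
  classical
  have key : ∀ (c : Fin n → Fin n → ℂ) (i j : Fin n),
      ∑ k, ∑ l, c k l * (((Pi.single i 1 : Fin n → ℂ) k) * ((Pi.single j 1 : Fin n → ℂ) l)) =
        c i j := by
    intro c i j
    rw [Finset.sum_eq_single i, Finset.sum_eq_single j]
    · simp
    · intro l _ hl
      simp [Pi.single_eq_of_ne hl]
    · simp
    · intro k _ hk
      simp [Pi.single_eq_of_ne hk]
    · simp
  intro i j
  have h1 := h (Pi.single i 1)
  have h2 := h (Pi.single j 1)
  have h3 := h (Pi.single i 1 + Pi.single j 1)
  simp only [Pi.add_apply, add_mul, mul_add, Finset.sum_add_distrib, key] at h1 h2 h3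
  rw [ha j i, hb j i] at h3
  linear_combination h3 / 2 - h1 / 2 - h2 / 2

/-- The relation between the coefficients of a form which is semi-invariant under
`X j ↦ c j * X (s j)`. -/
theorem semi_coeff {n : ℕ} {b : Fin n → Fin n → ℂ} (hb : ∀ i j, b i j = b j i)
    {c : Fin n → ℂ} {s : Fin n → Fin n} (hs : ∀ i, s (s i) = i) {χ : ℂ}
    (h : aeval (fun j => C (c j) * X (s j)) (qf b) = C χ * qf b) (i j : Fin n) :
    c i * c j * b i j = χ * b (s i) (s j) := by
  have e : Function.Involutive s := hs
  have h1 : ∀ z : Fin n → ℂ,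
      ∑ i, ∑ j, (c (s i) * c (s j) * b (s i) (s j)) * (z i * z j) =
        ∑ i, ∑ j, (χ * b i j) * (z i * z j) := by
    intro z
    have h2 := congrArg (eval z) h
    rw [aeval_def, eval_eval₂] at h2
    rw [map_mul, eval_C, eval_qf, Finset.mul_sum] at h2
    simp only [Finset.mul_sum, ← mul_assoc] at h2 ⊢
    rw [← h2]
    simp only [qf, eval₂_sum, eval₂_mul, eval₂_C, eval₂_X]
    simp only [RingHom.coe_comp, Function.comp_apply, algebraMap_eq, eval_C, map_mul, eval_X]
    rw [← Equiv.sum_comp e.toPerm]
    refine Finset.sum_congr rfl fun i _ => ?_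
    rw [← Equiv.sum_comp e.toPerm]
    refine Finset.sum_congr rfl fun j _ => ?_
    simp only [Function.Involutive.coe_toPerm, hs]
    ring
  have h3 := sum_ext (a := fun i j => c (s i) * c (s j) * b (s i) (s j))
    (b := fun i j => χ * b i j) (fun i j => by rw [hb (s i) (s j)]; ring)
    (fun i j => by rw [hb i j]) h1 (s i) (s j)
  simpa only [hs] using h3

end Vale.Agent.P297.H10.V3
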