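import Vale.Agent.P297.H10.V3.Defs
import Vale.Agent.P297.H10.V3.Quad

/-!
The coefficients of semi-invariant quadratic forms.
-/

open MvPolynomial

namespace Vale.Agent.P297.C8V

open Vale.Agent.P297.H10.V3

theorem Semi.exists_coeff {c : Fin 7 → ℂ} {s : Fin 7 → Fin 7} (hs : ∀ i, s (s i) = i)
    {χ : Fin 4 → ℂ} {F : Fin 4 → MvPolynomial (Fin 7) ℂ} (h : Semi c s χ F) :
    ∃ b : Fin 4 → Fin 7 → Fin 7 → ℂ, (∀ k i j, b k i j = b k j i) ∧
      (∀ k, F k = ∑ i, ∑ j, C (b k i j) * (X i * X j)) ∧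
      ∀ k i j, c i * c j * b k i j = χ k * b k (s i) (s j) := by
  choose b hb hF using fun k => exists_qf (h k).1
  refine ⟨b, hb, hF, fun k i j => ?_⟩
  have h1 := (h k).2
  rw [hF k] at h1
  exact semi_coeff (hb k) hs h1 i j

/-- The matrices of two semi-invariant systems are the same. -/
theorem Semi.coeff_of {c : Fin 7 → ℂ} {s : Fin 7 → Fin 7} (hs : ∀ i, s (s i) = i)
    {χ : Fin 4 → ℂ} {F : Fin 4 → MvPolynomial (Fin 7) ℂ} (h : Semi c s χ F)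
    {b : Fin 4 → Fin 7 → Fin 7 → ℂ} (hb : ∀ k i j, b k i j = b k j i)
    (hF : ∀ k, F k = ∑ i, ∑ j, C (b k i j) * (X i * X j)) (k : Fin 4) (i j : Fin 7) :
    c i * c j * b k i j = χ k * b k (s i) (s j) := by
  have h1 := (h k).2
  rw [hF k] at h1
  exact semi_coeff (hb k) hs h1 i j

theorem Semi.diag {c : Fin 7 → ℂ} {χ : Fin 4 → ℂ} {F : Fin 4 → MvPolynomial (Fin 7) ℂ}
    (h : Semi c id χ F) :
    ∃ b : Fin 4 → Fin 7 → Fin 7 → ℂ, (∀ k i j, b k i j = b k j i) ∧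
      (∀ k, F k = ∑ i, ∑ j, C (b k i j) * (X i * X j)) ∧
      ∀ k i j, c i * c j * b k i j = χ k * b k i j :=
  h.exists_coeff fun _ => rfl

/-- The common zeros with vanishing coordinates. -/
theorem Free.coord {c : Fin 7 → ℂ} {F : Fin 4 → MvPolynomial (Fin 7) ℂ} (h : Free c F) (a : ℂ)
    {z : Fin 7 → ℂ} (hz : z ≠ 0) (h0 : ∀ j, c j ≠ a → z j = 0) : ∃ i, eval z (F i) ≠ 0 := by
  refine h z a hz fun j => ?_
  by_cases hj : c j = a
  · rw [hj]
  · rw [h0 j hj, mul_zero, mul_zero]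

end Vale.Agent.P297.C8V
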