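import Vale.Agent.P297.H10.V3.SemiQ

/-!
Linear changes of coordinates.
-/

open MvPolynomial

namespace Vale.Agent.P297.C8V

theorem aeval_smul {R : Type*} [CommRing R] [Algebra ℂ R] {n : ℕ}
    {P : MvPolynomial (Fin 7) ℂ} (hP : P.IsHomogeneous n) (a : R) (z : Fin 7 → R) :
    aeval (fun j => a * z j) P = a ^ n * aeval z P := by
  rw [aeval_def, aeval_def, eval₂_eq, eval₂_eq, Finset.mul_sum]
  refine Finset.sum_congr rfl fun m hm => ?_
  have h1 : ∏ i ∈ m.support, (a * z i) ^ m i = a ^ n * ∏ i ∈ m.support, z i ^ m i := by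
    simp only [mul_pow, Finset.prod_mul_distrib, Finset.prod_pow_eq_pow_sum]
    congr 2
    rw [hP.degree_eq_sum_deg_support hm]
  rw [h1]
  ring

theorem eval_smul' {n : ℕ} {P : MvPolynomial (Fin 7) ℂ} (hP : P.IsHomogeneous n) (a : ℂ)
    (z : Fin 7 → ℂ) : eval (a • z) P = a ^ n * eval z P := by
  have := aeval_smul hP a z
  rwa [aeval_eq_eval, aeval_eq_eval] at this

/-- The chain rule. -/
theorem pderiv_aeval (f : Fin 7 → MvPolynomial (Fin 7) ℂ) (P : MvPolynomial (Fin 7) ℂ)
    (j : Fin 7) : pderiv j (aeval f P) = ∑ m, aeval f (pderiv m P) * pderiv j (f m) := by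
  classical
  induction P using MvPolynomial.induction_on with
  | C a => simp
  | add p q hp hq => simp only [map_add, hp, hq, add_mul, Finset.sum_add_distrib]
  | mul_X p i hp =>
    rw [map_mul, aeval_X, Derivation.leibniz, hp, smul_eq_mul, smul_eq_mul, Finset.mul_sum]
    have h1 : ∀ m, aeval f (pderiv m (p * X i)) * pderiv j (f m) =
        aeval f p * (if i = m then pderiv j (f m) else 0) +
          f i * (aeval f (pderiv m p) * pderiv j (f m)) := by
      intro m
      rw [Derivation.leibniz, smul_eq_mul, smul_eq_mul, map_add, map_mul, map_mul, aeval_X]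
      rw [pderiv_X, Pi.single_apply]
      by_cases h : i = m
      · subst h
        simp
        ring
      · have h' : ¬ m = i := fun h' => h h'.symm
        simp [h]
        ring
    simp only [h1, Finset.sum_add_distrib]
    rw [← Finset.mul_sum, ← Finset.mul_sum]
    simp

/-- A linear change of coordinates. -/
structure Link (F F' : Fin 4 → MvPolynomial (Fin 7) ℂ) (L L' : Fin 7 → MvPolynomial (Fin 7) ℂ)
    (R R' : Matrix (Fin 4) (Fin 4) ℂ) : Prop where
  hL : ∀ j, (L j).IsHomogeneous 1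
  hL' : ∀ j, (L' j).IsHomogeneous 1
  inv : ∀ j, aeval L (L' j) = X j
  inv' : ∀ j, aeval L' (L j) = X j
  eq : ∀ k, aeval L (F' k) = ∑ l, C (R k l) * F l
  rr : R * R' = 1

section

variable {F F' : Fin 4 → MvPolynomial (Fin 7) ℂ} {L L' : Fin 7 → MvPolynomial (Fin 7) ℂ}
  {R R' : Matrix (Fin 4) (Fin 4) ℂ}

theorem aeval_comp {A : Type*} [CommRing A] [Algebra ℂ A]
    (L : Fin 7 → MvPolynomial (Fin 7) ℂ) (z : Fin 7 → A) (P : MvPolynomial (Fin 7) ℂ) :
    aeval z (aeval L P) = aeval (fun j => aeval z (L j)) P := by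
  rw [← MvPolynomial.comp_aeval_apply]

theorem eval_comp (L : Fin 7 → MvPolynomial (Fin 7) ℂ) (z : Fin 7 → ℂ)
    (P : MvPolynomial (Fin 7) ℂ) :
    eval z (aeval L P) = eval (fun j => eval z (L j)) P := by
  have := aeval_comp L z P
  simpa only [aeval_eq_eval] using this

theorem Link.eq' (h : Link F F' L L' R R') (l : Fin 4) :
    F l = ∑ k, C (R' l k) * aeval L (F' k) := by
  have h1 : R' * R = 1 := mul_eq_one_comm.1 h.rr
  simp only [h.eq, Finset.mul_sum]
  rw [Finset.sum_comm]
  simp only [← mul_assoc, ← map_mul]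
  simp only [← Finset.sum_mul, ← map_sum]
  have h2 : ∀ m, ∑ k, R' l k * R k m = if l = m then 1 else 0 := by
    intro m
    have := congrFun (congrFun h1 l) m
    rwa [Matrix.mul_apply, Matrix.one_apply] at this
  simp [h2]

/-- points -/
theorem Link.zero (h : Link F F' L L' R R') {A : Type*} [CommRing A] [Algebra ℂ A]
    {z : Fin 7 → A} (hz : ∀ i, aeval z (F i) = 0) (k : Fin 4) :
    aeval (fun j => aeval z (L j)) (F' k) = 0 := by
  rw [← aeval_comp, h.eq, map_sum]
  exact Finset.sum_eq_zero fun l _ => by rw [map_mul, hz, mul_zero]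

theorem Link.pt (h : Link F F' L L' R R') (y : Fin 7 → ℂ) (j : Fin 7) :
    eval (fun i => eval y (L' i)) (L j) = y j := by
  rw [← eval_comp, h.inv', eval_X]

theorem Link.pt' (h : Link F F' L L' R R') {A : Type*} [CommRing A] [Algebra ℂ A]
    (z : Fin 7 → A) (j : Fin 7) : aeval (fun i => aeval z (L i)) (L' j) = z j := by
  rw [← aeval_comp, h.inv, aeval_X]

theorem Link.zero' (h : Link F F' L L' R R') {y : Fin 7 → ℂ} (hy : ∀ i, eval y (F' i) = 0)
    (l : Fin 4) : eval (fun i => eval y (L' i)) (F l) = 0 := by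
  rw [h.eq' l, map_sum]
  refine Finset.sum_eq_zero fun k _ => ?_
  rw [map_mul, eval_comp]
  simp only [h.pt y]
  rw [hy, mul_zero]

theorem Link.isFF (h : Link F F' L L' R R') (h0 : L 0 = X 0) {E : Type} [Field E]
    [Algebra ℂ E] {t : Fin 7 → E} (ht : IsFF F t) : IsFF F' fun j => aeval t (L j) where
  one := by rw [h0, aeval_X, ht.one]
  zero := h.zero ht.zero
  gen n P hP h0 y hy := by
    rw [← aeval_comp] at h0
    have h1 := ht.gen (1 * n) (aeval L P) (hP.aeval L h.hL) h0 _ (h.zero' hy)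
    rw [eval_comp] at h1
    simp only [h.pt y] at h1
    exact h1
  top := by
    rw [← top_le_iff, ← ht.top, IntermediateField.adjoin_le_iff]
    rintro _ ⟨j, rfl⟩
    rw [← h.pt' t j]
    have h1 : (aeval fun i => aeval t (L i)) (L' j) ∈
        Algebra.adjoin ℂ (Set.range fun i => aeval t (L i)) := by
      rw [Algebra.adjoin_range_eq_range_aeval]
      exact ⟨L' j, rfl⟩
    exact IntermediateField.algebra_adjoin_le_adjoin _ _ h1
  trdeg := ht.trdeg

theorem Link.isFF_div (h : Link F F' L L' R R') (hF : ∀ k, (F k).IsHomogeneous 2) {E : Type}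
    [Field E] [Algebra ℂ E] {t : Fin 7 → E} (ht : IsFF F t) (h0 : aeval t (L 0) ≠ 0) :
    IsFF F' fun j => (aeval t (L 0))⁻¹ * aeval t (L j) := by
  have e : (fun j => (aeval t (L 0))⁻¹ * aeval t (L j)) =
      fun j => aeval (fun i => (aeval t (L 0))⁻¹ * t i) (L j) := by
    funext j
    rw [aeval_smul (h.hL j), pow_one]
  have hi : (aeval t (L 0))⁻¹ ≠ 0 := inv_ne_zero h0
  refine ⟨inv_mul_cancel₀ h0, ?_, ?_, ?_, ht.trdeg⟩
  · rw [e]
    refine h.zero fun i => ?_
    rw [aeval_smul (hF i), ht.zero, mul_zero]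
  · intro n P hP h1 y hy
    rw [e, ← aeval_comp, aeval_smul (hP.aeval L h.hL)] at h1
    have h2 := (mul_eq_zero.1 h1).resolve_left (pow_ne_zero _ hi)
    have h3 := ht.gen (1 * n) (aeval L P) (hP.aeval L h.hL) h2 _ (h.zero' hy)
    rw [eval_comp] at h3
    simp only [h.pt y] at h3
    exact h3
  · rw [← top_le_iff, ← ht.top, IntermediateField.adjoin_le_iff, e]
    have h1 : ∀ j, (aeval t (L 0))⁻¹ * t j ∈ IntermediateField.adjoin ℂ (Set.range fun j =>
        aeval (fun i => (aeval t (L 0))⁻¹ * t i) (L j)) := by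
      intro j
      rw [← h.pt' (fun i => (aeval t (L 0))⁻¹ * t i) j]
      have h1 : (aeval fun i => aeval (fun i => (aeval t (L 0))⁻¹ * t i) (L i)) (L' j) ∈
          Algebra.adjoin ℂ (Set.range fun i =>
            aeval (fun i => (aeval t (L 0))⁻¹ * t i) (L i)) := by
        rw [Algebra.adjoin_range_eq_range_aeval]
        exact ⟨L' j, rfl⟩
      exact IntermediateField.algebra_adjoin_le_adjoin _ _ h1
    rintro _ ⟨j, rfl⟩
    have h2 := h1 0
    rw [ht.one, mul_one] at h2
    have h3 := mul_mem (inv_mem h2) (h1 j)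
    rwa [inv_inv, ← mul_assoc, mul_inv_cancel₀ h0, one_mul] at h3

theorem Link.iso (h : Link F F' L L' R R') (hF : Iso F) : Iso F' := by
  classical
  obtain ⟨Z, hZ⟩ := hF
  refine ⟨Z.image fun w => (fun j => eval w.1 (L j), fun k => ∑ l, w.2 l * R' l k), ?_⟩
  intro y m hy hy0 hm0 hm
  have hrr : ∀ k n, ∑ l, R k l * R' l n = if k = n then 1 else 0 := by
    intro k n
    have := congrFun (congrFun h.rr k) n
    rwa [Matrix.mul_apply, Matrix.one_apply] at this
  have hz0 : (fun i => eval y (L' i)) ≠ 0 := by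
    intro h0
    apply hy0
    funext j
    rw [← h.pt y j, h0]
    have := eval_smul' (h.hL j) 0 0
    rw [zero_smul] at this
    rw [this]
    simp
  have hl : ∀ k, ∑ l, (∑ n, m n * R n l) * R' l k = m k := by
    intro k
    simp only [Finset.sum_mul, mul_assoc]
    rw [Finset.sum_comm]
    simp only [← Finset.mul_sum, hrr]
    simp
  have hl0 : (fun l => ∑ n, m n * R n l) ≠ 0 := by
    intro h0
    apply hm0
    funext k
    rw [← hl k]
    refine Finset.sum_eq_zero fun l _ => ?_
    rw [show ∑ n, m n * R n l = 0 from congrFun h0 l, zero_mul]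
  obtain ⟨w, hw, a, b, h1, h2⟩ := hZ (fun i => eval y (L' i)) (fun l => ∑ n, m n * R n l)
    (h.zero' hy) hz0 hl0 (by
      intro j
      have h3 : ∀ n, ∑ l, R n l * eval (fun i => eval y (L' i)) (pderiv j (F l)) =
          ∑ i, eval y (pderiv i (F' n)) * eval (fun i => eval y (L' i)) (pderiv j (L i)) := by
        intro n
        have h4 := congrArg (fun P => eval (fun i => eval y (L' i)) (pderiv j P)) (h.eq n)
        simp only [map_sum, pderiv_C_mul, pderiv_aeval, map_mul, eval_comp,
          h.pt y, eval_C] at h4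
        rw [← h4]
      simp only [Finset.sum_mul, mul_assoc]
      rw [Finset.sum_comm]
      simp only [← Finset.mul_sum, h3]
      simp only [Finset.mul_sum, ← mul_assoc]
      rw [Finset.sum_comm]
      simp only [← Finset.sum_mul, hm, zero_mul, Finset.sum_const_zero])
  refine ⟨_, Finset.mem_image_of_mem _ hw, a, b, ?_, ?_⟩
  · funext j
    rw [← h.pt y j, h1, eval_smul' (h.hL j), pow_one]
    rfl
  · funext k
    rw [← hl k]
    simp only [Pi.smul_apply, smul_eq_mul, Finset.mul_sum]
    refine Finset.sum_congr rfl fun l _ => ?_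
    rw [show ∑ n, m n * R n l = b * w.2 l from congrFun h2 l]
    ring

end

end Vale.Agent.P297.C8V
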